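import Crest.Agent.N111.Lat.G
import Mathlib
import Crest.Agent.N111.Lat.Rep

-- ▼ part N111/Lat/Siegel
section

/-!
# Row 111, lattice foundations II: `SL(3, ℤ)` has finite covolume (a Siegel-type set).
-/

set_option autoImplicit false

namespace Crest.Agent.N111

open MeasureTheory Topology Filter Matrix
open scoped ENNReal NNReal

/-- Gram matrix of the columns -/
def gr (g : G) (i j : Fin 3) : ℝ := g 0 i * g 0 j + g 1 i * g 1 j + g 2 i * g 2 j

@[fun_prop] lemma continuous_gr (i j : Fin 3) : Continuous fun g => gr g i j := by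
  unfold gr; fun_prop

lemma gr_det (g : G) : gr g 0 0 * gr g 1 1 * gr g 2 2 + 2 * gr g 0 1 * gr g 0 2 * gr g 1 2
    - gr g 0 0 * gr g 1 2 ^ 2 - gr g 1 1 * gr g 0 2 ^ 2 - gr g 2 2 * gr g 0 1 ^ 2 = 1 := by
  have h := det_entry g
  have : (1 : ℝ) = 1 ^ 2 := by norm_num
  rw [this, ← h]
  unfold gr
  ring

lemma gr_pos (g : G) (i : Fin 3) : 0 < gr g i i := by
  have h := det_entry g
  have h0 : 0 ≤ gr g i i := by unfold gr; nlinarith [mul_self_nonneg (g 0 i), mul_self_nonneg (g 1 i), mul_self_nonneg (g 2 i)]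
  refine lt_of_le_of_ne h0 fun h1 => ?_
  unfold gr at h1
  have e0 : g 0 i = 0 := by nlinarith [mul_self_nonneg (g 0 i), mul_self_nonneg (g 1 i), mul_self_nonneg (g 2 i)]
  have e1 : g 1 i = 0 := by nlinarith [mul_self_nonneg (g 0 i), mul_self_nonneg (g 1 i), mul_self_nonneg (g 2 i)]
  have e2 : g 2 i = 0 := by nlinarith [mul_self_nonneg (g 0 i), mul_self_nonneg (g 1 i), mul_self_nonneg (g 2 i)]
  fin_cases i <;> simp only [Fin.zero_eta, Fin.mk_one, Fin.reduceFinMk] at e0 e1 e2 <;>
    rw [e0, e1, e2] at h <;> simp at h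

lemma sq_le_gr (g : G) (i j : Fin 3) : g i j ^ 2 ≤ gr g j j := by
  unfold gr
  fin_cases i <;> simp only [Fin.zero_eta, Fin.mk_one, Fin.reduceFinMk] <;>
    nlinarith [mul_self_nonneg (g 0 j), mul_self_nonneg (g 1 j), mul_self_nonneg (g 2 j)]

lemma mem_box_of_gr {g : G} {R : ℝ} (hR : 0 ≤ R) (h : ∀ j, gr g j j ≤ R ^ 2) : g ∈ box R :=
  fun i j => abs_le_of_sq_le_sq' ((sq_le_gr g i j).trans (h j)) hR |> abs_le.2

lemma gauss_bound {a b c r s t : ℝ} (ha : 0 < a) (hab : a ≤ b) (hbc : b ≤ c)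
    (hr : 2 * |r| ≤ a) (hs : 2 * |s| ≤ a) (ht : 2 * |t| ≤ b)
    (h3 : ∀ e f : ℝ, (e = 1 ∨ e = -1) → (f = 1 ∨ f = -1) →
      0 ≤ a + b + 2 * e * s + 2 * f * t + 2 * e * f * r)
    (hdet : a * b * c + 2 * r * s * t - a * t ^ 2 - b * s ^ 2 - c * r ^ 2 = 1) :
    a * b * c ≤ 4 ∧ 1 ≤ 4 * c := by
  have hb : 0 < b := ha.trans_le hab
  have hc : 0 < c := hb.trans_le hbc
  have hR := abs_nonneg r
  have hS := abs_nonneg s
  have hT := abs_nonneg t
  have e1 : r ^ 2 = |r| ^ 2 := (sq_abs r).symm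
  have e2 : s ^ 2 = |s| ^ 2 := (sq_abs s).symm
  have e3 : t ^ 2 = |t| ^ 2 := (sq_abs t).symm
  have hrst : |r * s * t| = |r| * |s| * |t| := by rw [abs_mul, abs_mul]
  have hac : a ≤ c := hab.trans hbc
  have k1 : |r| * |s| * |t| ≤ a * b * c / 8 := by
    have : |r| * |s| * |t| ≤ (a / 2) * (c / 2) * (b / 2) := by
      gcongr <;> linarith
    linarith
  have kt : a * |t| ^ 2 ≤ a * c / 2 * |t| := by
    have : |t| ≤ c / 2 := by linarith
    nlinarith [mul_nonneg (mul_nonneg ha.le hT) (sub_nonneg.2 this)]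
  have ks : b * |s| ^ 2 ≤ a * c / 2 * |s| := by
    have h1 : b * |s| ≤ c * (a / 2) := by gcongr; linarith
    nlinarith [mul_nonneg hS (sub_nonneg.2 h1)]
  have kr : c * |r| ^ 2 ≤ a * c / 2 * |r| := by
    have : |r| ≤ a / 2 := by linarith
    nlinarith [mul_nonneg (mul_nonneg hc.le hR) (sub_nonneg.2 this)]
  have hac0 : 0 < a * c / 2 := by positivity
  constructor
  · rcases le_or_gt 0 (r * s * t) with h | h
    · have : |r| + |s| + |t| ≤ 3 * b / 2 := by linarith
      have := mul_le_mul_of_nonneg_left this hac0.le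
      nlinarith
    · have hsum : |r| + |s| + |t| ≤ b := by
        have : 2 * (|r| + |s| + |t|) ≤ a + b := by
          rcases le_or_gt 0 s with h1 | h1 <;> rcases le_or_gt 0 t with h2 | h2
          · have hr0 : r ≤ 0 := by
              by_contra hh
              exact absurd h (not_lt.2 (by have := (not_le.1 hh).le; positivity))
            have := h3 (-1) (-1) (by simp) (by simp)
            rw [abs_of_nonpos hr0, abs_of_nonneg h1, abs_of_nonneg h2]; linarith
          · have hr0 : 0 ≤ r := by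
              by_contra hh
              have : 0 ≤ (-r) * s * (-t) := by
                have := (not_le.1 hh).le
                exact mul_nonneg (mul_nonneg (by linarith) h1) (by linarith)
              linarith
            have := h3 (-1) 1 (by simp) (by simp)
            rw [abs_of_nonneg hr0, abs_of_nonneg h1, abs_of_neg h2]; linarith
          · have hr0 : 0 ≤ r := by
              by_contra hh
              have : 0 ≤ (-r) * (-s) * t := by
                have := (not_le.1 hh).le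
                exact mul_nonneg (mul_nonneg (by linarith) (by linarith)) h2
              linarith
            have := h3 1 (-1) (by simp) (by simp)
            rw [abs_of_nonneg hr0, abs_of_neg h1, abs_of_nonneg h2]; linarith
          · have hr0 : r ≤ 0 := by
              by_contra hh
              have : 0 ≤ r * (-s) * (-t) := by
                have := (not_le.1 hh).le
                exact mul_nonneg (mul_nonneg this (by linarith)) (by linarith)
              linarith
            have := h3 1 1 (by simp) (by simp)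
            rw [abs_of_nonpos hr0, abs_of_neg h1, abs_of_neg h2]; linarith
        linarith
      have h5 := mul_le_mul_of_nonneg_left hsum hac0.le
      have h6 : r * s * t = -(|r| * |s| * |t|) := by rw [← hrst, abs_of_neg h]; ring
      nlinarith
  · have h6 : r * s * t ≤ |r| * |s| * |t| := hrst ▸ le_abs_self _
    have h7 : 1 ≤ 5 / 4 * (a * b * c) := by
      nlinarith [mul_nonneg ha.le (sq_nonneg t), mul_nonneg hb.le (sq_nonneg s),
        mul_nonneg hc.le (sq_nonneg r)]
    by_contra hh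
    have hc4 : c ≤ 1 / 4 := by linarith
    have : a * b * c ≤ (1 / 4) * (1 / 4) * (1 / 4) := by gcongr <;> linarith
    linarith

/-- an explicit element of `Γ` -/
def mkΓ (A : Matrix (Fin 3) (Fin 3) ℤ) (h : A.det = 1) : Γ := ⟨A, h⟩

@[simp] lemma mkΓ_apply (A : Matrix (Fin 3) (Fin 3) ℤ) (h : A.det = 1) (i j : Fin 3) :
    mkΓ A h i j = A i j := rfl

/-- Reduction theory. -/
theorem exists_reduced (g : G) : ∃ γ : Γ,
    gr (g * ι γ) 0 0 ≤ gr (g * ι γ) 1 1 ∧ gr (g * ι γ) 1 1 ≤ gr (g * ι γ) 2 2 ∧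
    2 * |gr (g * ι γ) 0 2| ≤ gr (g * ι γ) 0 0 ∧
    gr (g * ι γ) 0 0 * gr (g * ι γ) 1 1 * gr (g * ι γ) 2 2 ≤ 4 ∧ 1 ≤ 4 * gr (g * ι γ) 2 2 := by
  let F : G → ℝ := fun h => 3 * gr h 0 0 + 2 * gr h 1 1 + gr h 2 2
  have hfin : {γ : Γ | F (g * ι γ) ≤ F g}.Finite := by
    have hK : IsCompact ((fun h => g⁻¹ * h) '' box (F g + 1)) :=
      (isCompact_box _).image (by fun_prop)
    refine (finite_of_isCompact hK).subset fun γ hγ => ⟨g * ι γ, ?_, by simp⟩
    have hγ' : F (g * ι γ) ≤ F g := hγ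
    have p0 := gr_pos (g * ι γ) 0
    have p1 := gr_pos (g * ι γ) 1
    have p2 := gr_pos (g * ι γ) 2
    have hF : 0 ≤ F g := le_trans (by simp only [F]; positivity) hγ'
    refine mem_box_of_gr (by linarith) fun j => ?_
    have : gr (g * ι γ) j j ≤ F (g * ι γ) := by
      fin_cases j <;> simp only [F, Fin.zero_eta, Fin.mk_one, Fin.reduceFinMk] <;> linarith
    nlinarith
  obtain ⟨γ, hγ, hmin⟩ := Set.exists_min_image _ (fun γ => F (g * ι γ)) hfin ⟨1, by simp⟩
  have key : ∀ δ : Γ, F (g * ι γ) ≤ F (g * ι γ * ι δ) := fun δ => by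
    rw [mul_assoc, ← map_mul]
    by_cases h : F (g * ι (γ * δ)) ≤ F g
    · exact hmin _ h
    · exact le_trans hγ (not_le.1 h).le
  refine ⟨γ, ?_⟩
  generalize g * ι γ = h at key
  have k1 := key (mkΓ !![0, -1, 0; 1, 0, 0; 0, 0, 1] (by simp [det_fin_three]))
  have k2 := key (mkΓ !![1, 0, 0; 0, 0, -1; 0, 1, 0] (by simp [det_fin_three]))
  have k3 := fun e : ℤ => key (mkΓ !![1, e, 0; 0, 1, 0; 0, 0, 1] (by simp [det_fin_three]))
  have k4 := fun e f : ℤ => key (mkΓ !![1, 0, e; 0, 1, f; 0, 0, 1] (by simp [det_fin_three]))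
  simp only [F, gr, mul_entry, ι_apply, mkΓ_apply] at k1 k2 k3 k4
  simp only [of_apply, cons_val', cons_val_zero, cons_val_one, cons_val, cons_val_fin_one,
    Int.cast_zero, Int.cast_one, Int.cast_neg] at k1 k2 k3 k4
  have hab : gr h 0 0 ≤ gr h 1 1 := by unfold gr; linarith
  have hbc : gr h 1 1 ≤ gr h 2 2 := by unfold gr; linarith
  have hr : 2 * |gr h 0 1| ≤ gr h 0 0 := by
    have a1 := k3 1
    have a2 := k3 (-1)
    push_cast at a1 a2
    have : |gr h 0 1| ≤ gr h 0 0 / 2 := by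
      rw [abs_le]; unfold gr; constructor <;> linarith
    linarith
  have hs : 2 * |gr h 0 2| ≤ gr h 0 0 := by
    have a1 := k4 1 0
    have a2 := k4 (-1) 0
    push_cast at a1 a2
    have : |gr h 0 2| ≤ gr h 0 0 / 2 := by
      rw [abs_le]; unfold gr; constructor <;> linarith
    linarith
  have ht : 2 * |gr h 1 2| ≤ gr h 1 1 := by
    have a1 := k4 0 1
    have a2 := k4 0 (-1)
    push_cast at a1 a2
    have : |gr h 1 2| ≤ gr h 1 1 / 2 := by
      rw [abs_le]; unfold gr; constructor <;> linarith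
    linarith
  have h3 : ∀ e f : ℝ, (e = 1 ∨ e = -1) → (f = 1 ∨ f = -1) →
      0 ≤ gr h 0 0 + gr h 1 1 + 2 * e * gr h 0 2 + 2 * f * gr h 1 2 + 2 * e * f * gr h 0 1 := by
    have a1 := k4 1 1
    have a2 := k4 1 (-1)
    have a3 := k4 (-1) 1
    have a4 := k4 (-1) (-1)
    push_cast at a1 a2 a3 a4
    rintro e f (rfl | rfl) (rfl | rfl) <;> unfold gr <;> linarith
  have := gauss_bound (gr_pos h 0) hab hbc hr hs ht h3 (gr_det h)
  exact ⟨hab, hbc, hs, this.1, this.2⟩

/-- thin slices of a compact set -/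
def slice (ε : ℝ) : Set G := {h | h ∈ box 8 ∧ |gr h 0 2| ≤ ε * gr h 0 0}

lemma measurableSet_slice (ε : ℝ) : MeasurableSet (slice ε) :=
  ((isCompact_box 8).isClosed.inter (isClosed_le (f := fun h => |gr h 0 2|)
    (g := fun h => ε * gr h 0 0) (by fun_prop) (by fun_prop))).measurableSet

lemma measure_slice (ν : Measure G) [ν.IsHaarMeasure] {ε : ℝ} (hε : 0 < ε) :
    ν (slice ε) ≤ ENNReal.ofReal ε * ν (box 32) := by
  have := isMulRightInvariant_of_haar ν
  have h02 : (0 : Fin 3) ≠ 2 := by decide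
  let N := ⌈1 / ε⌉₊
  let T : ℕ → Set G := fun k => (fun h => h * tv h02 (-(3 * k * ε))) ⁻¹' slice ε
  have hT : ∀ k, MeasurableSet (T k) := fun k =>
    (measurableSet_slice ε).preimage (by fun_prop)
  have hTm : ∀ k, ν (T k) = ν (slice ε) := fun k => measure_preimage_mul_right ν _ _
  have hg0 : ∀ (h : G) (x : ℝ), gr (h * tv h02 x) 0 0 = gr h 0 0 := fun h x => by
    simp [gr, mul_tv_apply]
  have hg2 : ∀ (h : G) (x : ℝ), gr (h * tv h02 x) 0 2 = gr h 0 2 + x * gr h 0 0 := fun h x => by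
    simp [gr, mul_tv_apply]; ring
  have hdisj : ((Finset.range N : Finset ℕ) : Set ℕ).PairwiseDisjoint T := by
    intro k _ l _ hkl
    refine Set.disjoint_left.2 fun h hk hl => hkl ?_
    have a1 := hk.2
    have a2 := hl.2
    simp only [hg0, hg2, abs_le] at a1 a2
    have hp := mul_pos hε (gr_pos h 0)
    have b1 : (k : ℝ) < l + 1 := by
      by_contra hh
      nlinarith [mul_nonneg (sub_nonneg.2 (not_lt.1 hh)) hp.le]
    have b2 : (l : ℝ) < k + 1 := by
      by_contra hh
      nlinarith [mul_nonneg (sub_nonneg.2 (not_lt.1 hh)) hp.le]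
    have c1 : k < l + 1 := by exact_mod_cast b1
    have c2 : l < k + 1 := by exact_mod_cast b2
    omega
  have hsub : (⋃ k ∈ Finset.range N, T k) ⊆ box 32 := by
    intro h hh
    simp only [Set.mem_iUnion, Finset.mem_range] at hh
    obtain ⟨k, hk, hh⟩ := hh
    have hb := hh.1
    have hk' : (k : ℝ) * ε ≤ 1 := by
      have : (k : ℝ) < 1 / ε := Nat.lt_ceil.1 hk
      rw [lt_div_iff₀ hε] at this
      exact this.le
    have hk0 : 0 ≤ (k : ℝ) * ε := by positivity
    intro i j
    have b0 := hb i 0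
    have bj := hb i j
    simp only [mul_tv_apply] at b0 bj
    simp only [h02, if_false, add_zero] at b0
    split_ifs at bj
    · rw [abs_le] at b0 bj ⊢
      constructor <;> nlinarith
    · rw [add_zero] at bj; linarith
  have h1 : (N : ℝ≥0∞) * ν (slice ε) ≤ ν (box 32) := by
    refine le_trans (le_of_eq ?_) (measure_mono hsub)
    rw [measure_biUnion_finset hdisj fun k _ => hT k]
    simp [hTm]
  have h2 : 1 ≤ ENNReal.ofReal ε * N := by
    rw [← ENNReal.ofReal_natCast, ← ENNReal.ofReal_mul hε.le, ← ENNReal.ofReal_one]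
    refine ENNReal.ofReal_le_ofReal ?_
    have : 1 / ε ≤ N := Nat.le_ceil _
    rw [div_le_iff₀ hε] at this
    linarith
  calc ν (slice ε) = 1 * ν (slice ε) := (one_mul _).symm
    _ ≤ ENNReal.ofReal ε * N * ν (slice ε) := by gcongr
    _ ≤ _ := by rw [mul_assoc]; gcongr

lemma gr_mul_dg (h : G) (a b : ℝ) (i j : Fin 3) :
    gr (h * dg a b) i j = gr h i j * (Real.exp (dgl a b i) * Real.exp (dgl a b j)) := by
  simp only [gr, mul_dg_apply]; ring

/-- **Finite covolume**: a set of finite Haar measure meets every coset `g Γ`. -/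
theorem exists_siegel (ν : Measure G) [ν.IsHaarMeasure] :
    ∃ S : Set G, MeasurableSet S ∧ ν S < ∞ ∧ ∀ g, ∃ γ : Γ, g * ι γ ∈ S := by
  have := isMulRightInvariant_of_haar ν
  let T : ℕ × ℕ → Set G := fun p =>
    (fun h => h * dg p.1 (p.2 - p.1)) ⁻¹' slice (Real.exp (-1) ^ p.1 * Real.exp (-1) ^ p.2)
  refine ⟨⋃ p, T p, MeasurableSet.iUnion fun p => (measurableSet_slice _).preimage (by fun_prop),
    ?_, fun g => ?_⟩
  · let r : ℝ≥0∞ := ENNReal.ofReal (Real.exp (-1))
    have hr : r < 1 := by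
      rw [ENNReal.ofReal_lt_one]; exact Real.exp_lt_one_iff.2 (by norm_num)
    refine (measure_iUnion_le _).trans_lt ?_
    have : ∀ p : ℕ × ℕ, ν (T p) ≤ r ^ p.1 * (r ^ p.2 * ν (box 32)) := fun p => by
      rw [measure_preimage_mul_right]
      refine (measure_slice ν (by positivity)).trans (le_of_eq ?_)
      rw [ENNReal.ofReal_mul (by positivity), ENNReal.ofReal_pow (by positivity),
        ENNReal.ofReal_pow (by positivity), mul_assoc]
    refine (ENNReal.tsum_le_tsum this).trans_lt ?_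
    rw [ENNReal.tsum_prod (f := fun a b => r ^ a * (r ^ b * ν (box 32)))]
    simp only [ENNReal.tsum_mul_left, ENNReal.tsum_mul_right, ENNReal.tsum_geometric]
    have h1 : (1 - r)⁻¹ < ∞ := ENNReal.inv_lt_top.2 (tsub_pos_of_lt hr)
    exact ENNReal.mul_lt_top h1 (ENNReal.mul_lt_top h1 (isCompact_box 32).measure_lt_top)
  · obtain ⟨γ, hab, hbc, hs, hp, hc⟩ := exists_reduced g
    refine ⟨γ, ?_⟩
    generalize g * ι γ = h at hab hbc hs hp hc
    have ha := gr_pos h 0
    have ha2 : gr h 0 0 ≤ 2 := by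
      by_contra hh
      have hb := gr_pos h 1
      have : (2 : ℝ) * 2 * 2 ≤ gr h 0 0 * gr h 1 1 * gr h 2 2 := by gcongr <;> linarith
      linarith
    have hE : 1 < Real.exp 1 ^ 2 := by nlinarith [Real.add_one_lt_exp (one_ne_zero)]
    have hE8 : Real.exp 1 ^ 2 ≤ 8 := by
      have := Real.exp_one_lt_d9
      nlinarith [Real.exp_pos 1]
    obtain ⟨p, hp1, hp2⟩ := exists_nat_pow_near (x := 2 / gr h 0 0)
      (by rw [le_div_iff₀ ha]; linarith) hE
    obtain ⟨q, hq1, hq2⟩ := exists_nat_pow_near hc hE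
    refine Set.mem_iUnion.2 ⟨(p, q), ?_⟩
    set P := Real.exp 1 ^ p with hP
    set Q := Real.exp 1 ^ q with hQ
    have hP0 : 0 < P := by positivity
    have hQ0 : 0 < Q := by positivity
    have e0 : Real.exp (dgl p (q - p) 0) = P := by simp [dgl, hP]
    have e1 : Real.exp (dgl p (q - p) 1) = Q / P := by simp [dgl, hP, hQ, Real.exp_sub]
    have e2 : Real.exp (dgl p (q - p) 2) = Q⁻¹ := by
      simp only [dgl, hQ, cons_val, Real.exp_one_pow, ← Real.exp_neg]; congr 1; ring
    have f1 : (Real.exp 1 ^ 2) ^ p = P * P := by rw [hP]; ring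
    have f2 : (Real.exp 1 ^ 2) ^ q = Q * Q := by rw [hQ]; ring
    rw [pow_succ, f1] at hp2
    rw [pow_succ, f2] at hq2
    rw [f1, le_div_iff₀ ha] at hp1
    rw [div_lt_iff₀ ha] at hp2
    rw [f2] at hq1
    constructor
    · refine mem_box_of_gr (by norm_num) fun j => ?_
      rw [gr_mul_dg]
      fin_cases j <;> simp only [Fin.zero_eta, Fin.mk_one, Fin.reduceFinMk, e0, e1, e2]
      · linarith
      · have hb := gr_pos h 1
        rw [div_mul_div_comm, ← mul_div_assoc, div_le_iff₀ (by positivity)]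
        have g1 : gr h 1 1 * (Q * Q) ≤ gr h 1 1 * (4 * gr h 2 2) := by gcongr
        have g2 : 2 ≤ P * P * 8 * gr h 0 0 := hp2.le.trans (by gcongr)
        have g3 : 0 ≤ gr h 1 1 * gr h 2 2 := by have := gr_pos h 2; positivity
        nlinarith [mul_le_mul_of_nonneg_left g2 g3, mul_pos hP0 hP0]
      · rw [← mul_inv, ← div_eq_mul_inv, div_le_iff₀ (by positivity)]
        nlinarith [mul_pos hQ0 hQ0]
    · simp only [gr_mul_dg, e0, e2]
      have f3 : Real.exp (-1) ^ p = P⁻¹ := by rw [hP, Real.exp_neg, inv_pow]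
      have f4 : Real.exp (-1) ^ q = Q⁻¹ := by rw [hQ, Real.exp_neg, inv_pow]
      rw [f3, f4, abs_mul, abs_of_pos (by positivity : 0 < P * Q⁻¹)]
      have : P⁻¹ * Q⁻¹ * (gr h 0 0 * (P * P)) = gr h 0 0 * (P * Q⁻¹) := by field_simp
      rw [this]
      gcongr
      linarith [abs_nonneg (gr h 0 2)]

end Crest.Agent.N111
end

-- ▼ part N111/Lat/X
section

/-!
# Row 111, lattice foundations III: the probability space `X = G/Γ`, section, cocycle.

`X` is a strict Borel fundamental domain, `sec : X → G` the inclusion, `pr : G → X` the projection,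
`cc : G → Γ` the lattice coordinate (`g = sec (pr g) * ι (cc g)`), `g • x = pr (g * sec x)`,
`coc g x = cc (g * sec x)`, so `g * sec x = sec (g • x) * ι (coc g x)`.
`m` is the Haar measure of covolume one and `μ` the invariant probability measure on `X`.
-/

set_option autoImplicit false

namespace Crest.Agent.N111

open MeasureTheory Topology Filter Matrix
open scoped ENNReal NNReal symmDiff

theorem exists_small_nhds : ∃ W : Set G, IsOpen W ∧ 1 ∈ W ∧
    ∀ a ∈ W, ∀ b ∈ W, ∀ γ : Γ, a⁻¹ * b = ι γ → γ = 1 := by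
  let O : Set G := {g | ∀ i j, |g i j - (1 : G) i j| < 1}
  have hO : O ∈ 𝓝 (1 : G) := by
    refine IsOpen.mem_nhds ?_ (fun i j => by simp)
    simp only [O, Set.ofPred_forall]
    exact isOpen_iInter_of_finite fun i => isOpen_iInter_of_finite fun j =>
      isOpen_lt (by fun_prop) continuous_const
  have hc : Continuous fun p : G × G => p.1⁻¹ * p.2 := by fun_prop
  have h1 : (fun p : G × G => p.1⁻¹ * p.2) ⁻¹' O ∈ 𝓝 ((1 : G), (1 : G)) :=
    hc.continuousAt.preimage_mem_nhds (by simpa using hO)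
  obtain ⟨V, hV, hV1, hV'⟩ := exists_nhds_square h1
  refine ⟨V, hV, hV1, fun a ha b hb γ hγ => ?_⟩
  have h2 : a⁻¹ * b ∈ O := by
    have := hV' (Set.mk_mem_prod ha hb)
    rwa [Set.mem_preimage] at this
  rw [hγ] at h2
  ext i j
  have h3 : |((γ i j : ℤ) : ℝ) - (((1 : Γ) i j : ℤ) : ℝ)| < 1 := by
    have := h2 i j
    rwa [← map_one ι, ι_apply, ι_apply] at this
  have h4 : |γ i j - (1 : Γ) i j| < 1 := by exact_mod_cast h3
  exact sub_eq_zero.1 (Int.abs_lt_one_iff.1 h4)

theorem exists_dom : ∃ D : Set G, MeasurableSet D ∧ ∀ g : G, ∃! γ : Γ, g * (ι γ)⁻¹ ∈ D := by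
  classical
  obtain ⟨W, hW, h1, hWΓ⟩ := exists_small_nhds
  obtain ⟨u, hu⟩ := TopologicalSpace.exists_dense_seq G
  let U : ℕ → Set G := fun n => {g | (u n)⁻¹ * g ∈ W}
  have hU : ∀ n, MeasurableSet (U n) := fun n => hW.measurableSet.preimage (by fun_prop)
  let A : ℕ → Set G := fun n => {g | ∃ γ : Γ, g * (ι γ)⁻¹ ∈ U n}
  have hA : ∀ n, MeasurableSet (A n) := fun n => by
    simp only [A, Set.ofPred_exists]
    exact MeasurableSet.iUnion fun γ => (hU n).preimage (by fun_prop)
  have hAinv : ∀ n g (γ : Γ), g * (ι γ)⁻¹ ∈ A n ↔ g ∈ A n := fun n g γ => by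
    constructor
    · rintro ⟨δ, hδ⟩
      exact ⟨δ * γ, by simpa [mul_assoc] using hδ⟩
    · rintro ⟨δ, hδ⟩
      exact ⟨δ * γ⁻¹, by simpa [mul_assoc] using hδ⟩
  have hcov : ∀ g, ∃ n, g ∈ A n := fun g => by
    have ho : IsOpen {h : G | h⁻¹ * g ∈ W} := hW.preimage (by fun_prop)
    obtain ⟨n, hn⟩ := hu.exists_mem_open ho ⟨g, by simpa using h1⟩
    exact ⟨n, 1, by simpa [U] using hn⟩
  refine ⟨⋃ n, U n \ ⋃ k ∈ Set.Iio n, A k, MeasurableSet.iUnion fun n => (hU n).diff
    (MeasurableSet.biUnion (Set.to_countable _) fun k _ => hA k), fun g => ?_⟩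
  have key : ∀ γ : Γ, g * (ι γ)⁻¹ ∈ (⋃ n, U n \ ⋃ k ∈ Set.Iio n, A k) ↔
      g * (ι γ)⁻¹ ∈ U (Nat.find (hcov g)) := fun γ => by
    simp only [Set.mem_iUnion, Set.mem_sdiff, Set.mem_Iio, not_exists, hAinv]
    constructor
    · rintro ⟨n, hn, hn'⟩
      have : Nat.find (hcov g) = n := (Nat.find_eq_iff _).2 ⟨⟨γ, hn⟩, hn'⟩
      rwa [this]
    · exact fun h => ⟨_, h, fun k hk => Nat.find_min _ hk⟩
  obtain ⟨γ, hγ⟩ := Nat.find_spec (hcov g)
  refine ⟨γ, (key γ).2 hγ, fun δ hδ => ?_⟩
  have hδ' := (key δ).1 hδ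
  have := hWΓ _ hδ' _ hγ (δ * γ⁻¹) (by simp [mul_assoc])
  exact mul_inv_eq_one.1 this

/-- a strict Borel fundamental domain -/
def dom : Set G := exists_dom.choose

lemma measurableSet_dom : MeasurableSet dom := exists_dom.choose_spec.1

/-- the lattice coordinate of `g` -/
noncomputable def cc (g : G) : Γ := (exists_dom.choose_spec.2 g).exists.choose

lemma cc_eq_iff {g : G} {γ : Γ} : cc g = γ ↔ g * (ι γ)⁻¹ ∈ dom :=
  ⟨fun h => h ▸ (exists_dom.choose_spec.2 g).exists.choose_spec,
    fun h => (exists_dom.choose_spec.2 g).unique (exists_dom.choose_spec.2 g).exists.choose_spec h⟩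

lemma mem_dom_iff {g : G} : g ∈ dom ↔ cc g = 1 := by simp [cc_eq_iff]

@[simp] lemma cc_mul_ι (g : G) (γ : Γ) : cc (g * ι γ) = cc g * γ := by
  rw [cc_eq_iff]
  simpa [mul_assoc] using cc_eq_iff.1 (rfl : cc g = cc g)

@[fun_prop] lemma measurable_cc : Measurable cc := by
  refine measurable_to_countable' fun γ => ?_
  have : cc ⁻¹' {γ} = (fun g => g * (ι γ)⁻¹) ⁻¹' dom := by ext g; simp [cc_eq_iff]
  rw [this]
  exact measurableSet_dom.preimage (by fun_prop)

/-- `X = G/Γ` -/
def X : Type := dom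

instance : MeasurableSpace X := inferInstanceAs (MeasurableSpace dom)
instance : StandardBorelSpace X := measurableSet_dom.standardBorel

/-- the section `X → G` -/
def sec (x : X) : G := Subtype.val (p := fun g => g ∈ dom) x

/-- the projection `G → X` -/
noncomputable def pr (g : G) : X := (⟨g * (ι (cc g))⁻¹, cc_eq_iff.1 rfl⟩ : dom)

lemma measurableEmbedding_sec : MeasurableEmbedding sec :=
  MeasurableEmbedding.subtype_coe measurableSet_dom

@[fun_prop] lemma measurable_sec : Measurable sec := measurableEmbedding_sec.measurable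

lemma sec_injective : Function.Injective sec := measurableEmbedding_sec.injective

lemma range_sec : Set.range sec = dom := Subtype.range_val

lemma sec_mem (x : X) : sec x ∈ dom := Subtype.property (p := fun g => g ∈ dom) x

lemma sec_pr (g : G) : sec (pr g) = g * (ι (cc g))⁻¹ := rfl

lemma sec_pr_mul (g : G) : sec (pr g) * ι (cc g) = g := by simp [sec_pr]

@[simp] lemma cc_sec (x : X) : cc (sec x) = 1 := mem_dom_iff.1 (sec_mem x)

@[simp] lemma pr_sec (x : X) : pr (sec x) = x := sec_injective (by simp [sec_pr])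

@[simp] lemma pr_mul_ι (g : G) (γ : Γ) : pr (g * ι γ) = pr g :=
  sec_injective (by simp [sec_pr, mul_assoc])

@[fun_prop] lemma measurable_ι : Measurable ι := Measurable.of_discrete

instance : MeasurableMul₂ Γ := ⟨Measurable.of_discrete⟩
instance : MeasurableInv Γ := ⟨Measurable.of_discrete⟩

@[fun_prop] lemma measurable_pr : Measurable pr := by
  rw [← measurableEmbedding_sec.measurable_comp_iff]
  have : sec ∘ pr = fun g => g * (ι (cc g))⁻¹ := rfl
  rw [this]
  fun_prop

noncomputable instance : MulAction G X where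
  smul g x := pr (g * sec x)
  one_smul x := by change pr (1 * sec x) = x; simp
  mul_smul g h x := by
    change pr (g * h * sec x) = pr (g * sec (pr (h * sec x)))
    rw [sec_pr, ← map_inv, ← mul_assoc, pr_mul_ι, mul_assoc]

lemma smul_def (g : G) (x : X) : g • x = pr (g * sec x) := rfl

lemma smul_pr (g h : G) : g • pr h = pr (g * h) := by
  rw [smul_def, sec_pr, ← map_inv, ← mul_assoc, pr_mul_ι]

instance : MeasurableSMul₂ G X := ⟨by simp only [smul_def]; fun_prop⟩

/-- the cocycle `G × X → Γ` -/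
noncomputable def coc (g : G) (x : X) : Γ := cc (g * sec x)

lemma mul_sec (g : G) (x : X) : g * sec x = sec (g • x) * ι (coc g x) := (sec_pr_mul _).symm


@[simp] lemma coc_one (x : X) : coc 1 x = 1 := by simp [coc]

lemma coc_mul (g h : G) (x : X) : coc (g * h) x = coc g (h • x) * coc h x := by
  rw [coc, mul_assoc, mul_sec, ← mul_assoc, cc_mul_ι]; rfl

lemma coc_inv (g : G) (x : X) : coc g⁻¹ (g • x) = (coc g x)⁻¹ :=
  eq_inv_of_mul_eq_one_left (by rw [← coc_mul]; simp)

lemma coc_inv' (g : G) (x : X) : coc g (g⁻¹ • x) = (coc g⁻¹ x)⁻¹ := by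
  simpa using coc_inv g⁻¹ x

@[fun_prop] lemma measurable_coc {α : Type*} [MeasurableSpace α] {g : α → G} {x : α → X}
    (hg : Measurable g) (hx : Measurable x) : Measurable fun a => coc (g a) (x a) := by
  unfold coc; fun_prop

lemma measurableSet_coc (g : G) (S : Set Γ) : MeasurableSet {x | coc g x ∈ S} :=
  (measurable_coc measurable_const measurable_id) (MeasurableSet.of_discrete (s := S))

lemma smul_sec_mul (x y : X) (γ : Γ) : (sec y * ι γ * (sec x)⁻¹) • x = y := by
  simp [smul_def]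

lemma coc_sec_mul (x y : X) (γ : Γ) : coc (sec y * ι γ * (sec x)⁻¹) x = γ := by
  simp [coc]

lemma coc_pr (g h : G) : coc g (pr h) = cc (g * h) * (cc h)⁻¹ := by
  rw [coc, sec_pr, ← map_inv, ← mul_assoc, cc_mul_ι]

/-! ### measures -/

lemma lintegral_unfold_aux (ν : Measure G) [ν.IsHaarMeasure] {f : G → ℝ≥0∞} (hf : Measurable f) :
    ∫⁻ g, f g ∂ν = ∑' γ : Γ, ∫⁻ g in dom, f (g * ι γ) ∂ν := by
  have := isMulRightInvariant_of_haar ν
  have hu : (⋃ γ : Γ, cc ⁻¹' {γ}) = Set.univ :=
    Set.eq_univ_of_forall fun g => Set.mem_iUnion.2 ⟨cc g, rfl⟩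
  rw [← setLIntegral_univ, ← hu, lintegral_iUnion
    (fun γ => measurable_cc (MeasurableSet.of_discrete))
    (fun a b hab => Set.disjoint_left.2 fun g ha hb => hab (ha.symm.trans hb))]
  refine tsum_congr fun γ => ?_
  have h := (measurePreserving_mul_right ν (ι γ)).setLIntegral_comp_preimage
    (s := cc ⁻¹' {γ}) (measurable_cc (MeasurableSet.of_discrete)) hf
  rw [← h]
  congr 2
  ext g
  simp [mem_dom_iff]

lemma measure_dom_lt_top (ν : Measure G) [ν.IsHaarMeasure] : ν dom < ∞ := by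
  obtain ⟨S, hS, hS', hc⟩ := exists_siegel ν
  refine lt_of_le_of_lt ?_ hS'
  rw [← lintegral_indicator_one hS, lintegral_unfold_aux ν (measurable_one.indicator hS),
    ← lintegral_tsum (f := fun (γ : Γ) g => S.indicator 1 (g * ι γ))
      fun γ => ((measurable_one.indicator hS).comp (measurable_mul_const _)).aemeasurable,
    ← setLIntegral_one]
  refine lintegral_mono fun g => ?_
  obtain ⟨γ, hγ⟩ := hc g
  refine le_trans (le_of_eq ?_) (ENNReal.le_tsum γ)
  simp [hγ]

lemma measure_dom_pos (ν : Measure G) [ν.IsHaarMeasure] : ν dom ≠ 0 := by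
  intro h
  have := lintegral_unfold_aux ν (f := fun _ => 1) measurable_const
  simp [h] at this
  exact NeZero.ne ν this

/-- the Haar measure of covolume one -/
noncomputable def m : Measure G := ((Measure.haar : Measure G) dom)⁻¹ • Measure.haar

instance : m.IsHaarMeasure :=
  Measure.IsHaarMeasure.smul _ (ENNReal.inv_ne_zero.2 (measure_dom_lt_top _).ne)
    (ENNReal.inv_ne_top.2 (measure_dom_pos _))

instance : m.IsMulRightInvariant := isMulRightInvariant_of_haar m
instance : m.IsInvInvariant := isInvInvariant_of_haar m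

@[simp] lemma m_dom : m dom = 1 :=
  ENNReal.inv_mul_cancel (measure_dom_pos _) (measure_dom_lt_top _).ne

/-- the invariant probability measure on `X` -/
noncomputable def μ : Measure X := m.comap sec

lemma μ_apply (A : Set X) : μ A = m (sec '' A) := measurableEmbedding_sec.comap_apply _ _

instance : IsProbabilityMeasure μ := ⟨by rw [μ_apply, Set.image_univ, range_sec, m_dom]⟩

lemma map_sec : μ.map sec = m.restrict dom := by
  rw [μ, measurableEmbedding_sec.map_comap, range_sec]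

lemma measurePreserving_sec : MeasurePreserving sec μ (m.restrict dom) := ⟨measurable_sec, map_sec⟩

lemma μ_le {A : Set X} {B : Set G} (h : ∀ x ∈ A, sec x ∈ B) : μ A ≤ m B := by
  rw [μ_apply]
  exact measure_mono (by rintro _ ⟨x, hx, rfl⟩; exact h x hx)

/-- **Unfolding.** -/
theorem lintegral_unfold {f : G → ℝ≥0∞} (hf : Measurable f) :
    ∫⁻ g, f g ∂m = ∫⁻ x, ∑' γ : Γ, f (sec x * ι γ) ∂μ := by
  rw [lintegral_unfold_aux m hf, lintegral_tsum (f := fun (γ : Γ) x => f (sec x * ι γ))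
    fun γ => (hf.comp (measurable_sec.mul_const _)).aemeasurable]
  refine tsum_congr fun γ => ?_
  rw [← map_sec, lintegral_map (f := fun g => f (g * ι γ)) (hf.comp (measurable_mul_const _))
    measurable_sec]

/-- `G ≃ X × Γ` -/
noncomputable def unfold : X × Γ ≃ᵐ G where
  toFun p := sec p.1 * ι p.2
  invFun g := (pr g, cc g)
  left_inv p := by simp
  right_inv g := sec_pr_mul g
  measurable_toFun := by simp only [Equiv.coe_fn_mk]; fun_prop
  measurable_invFun := by simp only [Equiv.coe_fn_symm_mk]; fun_prop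

lemma unfold_apply (p : X × Γ) : unfold p = sec p.1 * ι p.2 := rfl

theorem measurePreserving_unfold : MeasurePreserving unfold (μ.prod Measure.count) m := by
  refine ⟨unfold.measurable, Measure.ext fun A hA => ?_⟩
  rw [← lintegral_indicator_one hA, ← lintegral_indicator_one hA,
    lintegral_unfold (measurable_one.indicator hA),
    lintegral_map (measurable_one.indicator hA) unfold.measurable,
    lintegral_prod (fun a => A.indicator 1 (unfold a))
      ((measurable_one.indicator hA).comp unfold.measurable).aemeasurable]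
  simp only [lintegral_count, unfold_apply]

theorem measurePreserving_smul (g : G) : MeasurePreserving (fun x : X => g • x) μ μ := by
  refine ⟨by fun_prop, Measure.ext fun A hA => ?_⟩
  rw [Measure.map_apply (by fun_prop) hA, μ_apply]
  have h1 : sec '' ((fun x : X => g • x) ⁻¹' A)
      = (fun h => g * h) ⁻¹' {h | pr h ∈ A ∧ cc (g⁻¹ * h) = 1} := by
    ext h
    simp only [Set.mem_image, Set.mem_preimage, Set.mem_ofPred_eq, inv_mul_cancel_left]
    constructor
    · rintro ⟨x, hx, rfl⟩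
      exact ⟨hx, cc_sec x⟩
    · rintro ⟨h1, h2⟩
      exact ⟨pr h, by rwa [smul_pr], by simp [sec_pr, h2]⟩
  have hB : MeasurableSet {h | pr h ∈ A ∧ cc (g⁻¹ * h) = 1} :=
    (measurable_pr hA).inter ((measurable_cc.comp (measurable_const_mul g⁻¹))
      (MeasurableSet.of_discrete (s := {1})))
  rw [h1, measure_preimage_mul, ← lintegral_indicator_one hB,
    lintegral_unfold (measurable_one.indicator hB), ← lintegral_indicator_one hA]
  refine lintegral_congr fun x => ?_
  rw [tsum_eq_single (coc g⁻¹ x)⁻¹]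
  · by_cases hx : x ∈ A <;> simp [Set.indicator, hx, ← mul_assoc, -map_inv, coc]
  · intro γ hγ
    refine Set.indicator_of_notMem (fun h => hγ ?_) _
    have := h.2
    rw [← mul_assoc, cc_mul_ι] at this
    exact eq_inv_of_mul_eq_one_right this

instance : SMulInvariantMeasure G X μ :=
  ⟨fun g _ hs => (measurePreserving_smul g).measure_preimage hs.nullMeasurableSet⟩

/-- null sets of `X` pull back to null sets of `G` -/
theorem quasiMeasurePreserving_pr : Measure.QuasiMeasurePreserving pr m μ := by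
  have h1 := (measurePreserving_unfold.symm unfold).quasiMeasurePreserving
  exact (Measure.quasiMeasurePreserving_fst (μ := μ) (ν := Measure.count)).comp h1

theorem ae_pr_iff {p : G → Prop} : (∀ᵐ g ∂m, p g) ↔ ∀ γ : Γ, ∀ᵐ x ∂μ, p (sec x * ι γ) := by
  constructor
  · intro h γ
    have h1 : ∀ᵐ g ∂m, p (g * ι γ) :=
      (measurePreserving_mul_right m (ι γ)).quasiMeasurePreserving.ae h
    exact measurePreserving_sec.quasiMeasurePreserving.ae (ae_restrict_of_ae h1)
  · intro h
    filter_upwards [quasiMeasurePreserving_pr.ae (ae_all_iff.2 h)] with g hg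
    simpa [sec_pr_mul] using hg (cc g)

end Crest.Agent.N111
end

-- ▼ part N111/Lat/Cont
section

/-!
# Row 111, lattice foundations IV: continuity, tightness and spreading of the cocycle.
-/

set_option autoImplicit false

namespace Crest.Agent.N111

open MeasureTheory Topology Filter Matrix
open scoped ENNReal NNReal symmDiff Pointwise

theorem tendsto_mul_symmDiff {A : Set G} (hA : MeasurableSet A) (hA' : m A ≠ ∞) :
    Tendsto (fun u : G => m (((fun g => u * g) ⁻¹' A) ∆ A)) (𝓝 1) (𝓝 0) := by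
  let F : C(G, C(G, G)) := ContinuousMap.curry ⟨fun p : G × G => p.1 * p.2, continuous_mul⟩
  have h := tendsto_measure_symmDiff_preimage_nhds_zero (μ := m) (ν := m) (l := 𝓝 (1 : G))
    (f := F) (g := F 1) (s := A) F.continuous.continuousAt
    (Eventually.of_forall fun u => measurePreserving_mul_left m u)
    (measurePreserving_mul_left m 1) hA.nullMeasurableSet hA'
  have e : (F 1) ⁻¹' A = A := by ext g; simp [F]
  rw [e] at h
  exact h

theorem tendsto_coc_ne_one : Tendsto (fun u : G => μ {x | coc u x ≠ 1}) (𝓝 1) (𝓝 0) := by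
  refine tendsto_of_tendsto_of_tendsto_of_le_of_le tendsto_const_nhds
    (tendsto_mul_symmDiff measurableSet_dom (by simp)) (fun _ => bot_le) fun u => μ_le ?_
  intro x hx
  exact Or.inr ⟨sec_mem x, fun h => hx (mem_dom_iff.1 h)⟩

/-- the cocycle is continuous in measure -/
theorem tendsto_coc_ne (g₀ : G) :
    Tendsto (fun g : G => μ {x | coc g x ≠ coc g₀ x}) (𝓝 g₀) (𝓝 0) := by
  have h : Tendsto (fun g : G => g * g₀⁻¹) (𝓝 g₀) (𝓝 1) :=
    (by fun_prop : Continuous fun g : G => g * g₀⁻¹).tendsto' _ _ (by simp)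
  refine (tendsto_coc_ne_one.comp h).congr fun g => ?_
  have e : {x | coc g x ≠ coc g₀ x} = (fun x => g₀ • x) ⁻¹' {x | coc (g * g₀⁻¹) x ≠ 1} := by
    ext x
    have : coc g x = coc (g * g₀⁻¹) (g₀ • x) * coc g₀ x := by rw [← coc_mul]; simp
    simp [this]
  rw [e, measure_preimage_smul]
  rfl

/-- the action on `X` is continuous in measure -/
theorem tendsto_smul_symmDiff {A : Set X} (hA : MeasurableSet A) :
    Tendsto (fun u : G => μ (((fun x => u • x) ⁻¹' A) ∆ A)) (𝓝 1) (𝓝 0) := by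
  have hB : MeasurableSet (sec '' A) := measurableEmbedding_sec.measurableSet_image.2 hA
  have h1 := tendsto_mul_symmDiff hB (by rw [← μ_apply]; exact measure_ne_top _ _)
  have h2 := tendsto_coc_ne_one.add h1
  rw [add_zero] at h2
  refine tendsto_of_tendsto_of_tendsto_of_le_of_le tendsto_const_nhds h2 (fun _ => bot_le)
    fun u => ?_
  have : ((fun x => u • x) ⁻¹' A) ∆ A ⊆ {x | coc u x ≠ 1} ∪
      {x | sec x ∈ ((fun g => u * g) ⁻¹' (sec '' A)) ∆ (sec '' A)} := by
    intro x hx
    by_cases hc : coc u x = 1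
    · right
      have e : u * sec x = sec (u • x) := by rw [mul_sec, hc]; simp
      simpa only [Set.mem_symmDiff, Set.mem_preimage, Set.mem_ofPred_eq, e,
        sec_injective.mem_set_image] using hx
    · exact Or.inl hc
  exact (measure_mono this).trans ((measure_union_le _ _).trans
    (add_le_add le_rfl (μ_le fun x hx => hx)))

theorem exists_box {ε : ℝ≥0∞} (hε : ε ≠ 0) : ∃ R : ℝ, μ {x | sec x ∉ box R} ≤ ε := by
  have hm : ∀ n : ℕ, MeasurableSet {x | sec x ∉ box n} := fun n =>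
    (measurable_sec (isCompact_box n).measurableSet).compl
  have h := tendsto_measure_iInter_atTop (μ := μ) (s := fun n : ℕ => {x | sec x ∉ box n})
    (fun n => (hm n).nullMeasurableSet)
    (fun a b hab x hx hx' => hx fun i j => (hx' i j).trans (by exact_mod_cast hab))
    ⟨0, measure_ne_top _ _⟩
  have e : (⋂ n : ℕ, {x | sec x ∉ box n}) = ∅ := by
    refine Set.eq_empty_of_forall_notMem fun x hx => ?_
    obtain ⟨R, -, hR⟩ := exists_subset_box (isCompact_singleton (x := sec x))
    refine Set.mem_iInter.1 hx ⌈R⌉₊ fun i j => (hR rfl i j).trans (Nat.le_ceil R)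
  rw [e, measure_empty] at h
  obtain ⟨n, hn⟩ := (h.eventually (Iic_mem_nhds (pos_iff_ne_zero.2 hε))).exists
  exact ⟨n, hn⟩


/-- the vanishing locus of a matrix entry is Haar-null -/
theorem m_entry_eq_zero (i j : Fin 3) : m {g : G | g i j = 0} = 0 := by
  have h1 : ∀ k : Fin 3, i ≠ k → m {g : G | g i j = 0 ∧ g k j ≠ 0} = 0 := fun k hik => by
    let Z : ℝ → Set G := fun t => {g | g i j = t * g k j ∧ g k j ≠ 0}
    have hZ : ∀ t, MeasurableSet (Z t) := fun t =>
      (measurableSet_eq_fun (by fun_prop) (by fun_prop)).inter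
        (measurableSet_eq_fun (by fun_prop) measurable_const).compl
    have hd : Pairwise (Function.onFun Disjoint Z) := fun s t hst =>
      Set.disjoint_left.2 fun g hs ht => hst (mul_right_cancel₀ hs.2 (hs.1.symm.trans ht.1))
    have hc := Measure.countable_meas_pos_of_disjoint_iUnion (μ := m) hZ hd
    have hm : ∀ t, m (Z t) = m {g : G | g i j = 0 ∧ g k j ≠ 0} := fun t => by
      rw [← measure_preimage_mul m (tv hik t)]
      congr 1
      ext g
      simp [Z, tv_mul_apply, hik.symm]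
    by_contra hne
    have : {t : ℝ | 0 < m (Z t)} = Set.univ :=
      Set.eq_univ_of_forall fun t => by rw [Set.mem_ofPred_eq, hm]; exact pos_iff_ne_zero.2 hne
    rw [this] at hc
    exact Cardinal.not_countable_real hc
  have h2 : {g : G | g i j = 0} ⊆ ⋃ k ∈ {k : Fin 3 | i ≠ k}, {g : G | g i j = 0 ∧ g k j ≠ 0} := by
    intro g hg
    have hg' : g i j = 0 := hg
    by_contra hc
    simp only [Set.mem_iUnion, Set.mem_ofPred_eq, not_exists, not_and, not_not] at hc
    have hall : ∀ k, g k j = 0 := fun k => by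
      by_cases hk : i = k
      · exact hk ▸ hg'
      · exact hc k hk hg'
    have := gr_pos g j
    simp [gr, hall] at this
  exact measure_mono_null h2 ((measure_biUnion_null_iff (Set.to_countable _)).2 h1)




end Crest.Agent.N111
end

-- ▼ part N111/Lat/Fld
section

/-!
# Row 111: bounded measurable fields of operators acting on `L²(Y; H)`.
-/

set_option autoImplicit false

namespace Crest.Agent.N111

open MeasureTheory Topology Filter
open scoped ENNReal NNReal InnerProductSpace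

variable {Y : Type*} [MeasurableSpace Y] {ν : Measure Y}
variable {H H' H'' : Type*} [NormedAddCommGroup H] [InnerProductSpace ℂ H]
  [NormedAddCommGroup H'] [InnerProductSpace ℂ H'] [NormedAddCommGroup H''] [InnerProductSpace ℂ H'']

/-- a strongly measurable, essentially bounded field of operators -/
structure IsFld (ν : Measure Y) (T : Y → H →L[ℂ] H') : Prop where
  meas : ∀ v, AEStronglyMeasurable (fun y => T y v) ν
  bdd : ∃ C : ℝ, ∀ᵐ y ∂ν, ‖T y‖ ≤ C

lemma aesm_apply {T : Y → H →L[ℂ] H'} (hT : ∀ v, AEStronglyMeasurable (fun y => T y v) ν)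
    {ξ : Y → H} (hξ : AEStronglyMeasurable ξ ν) : AEStronglyMeasurable (fun y => T y (ξ y)) ν := by
  have hs : ∀ s : SimpleFunc Y H, AEStronglyMeasurable (fun y => T y (s y)) ν := fun s => by
    induction s using SimpleFunc.induction with
    | @const c A hA =>
      refine ((hT c).indicator hA).congr (Eventually.of_forall fun y => ?_)
      by_cases hy : y ∈ A <;> simp [hy]
    | @add f g _ hf hg =>
      refine (hf.add hg).congr (Eventually.of_forall fun y => ?_)
      simp
  refine aestronglyMeasurable_of_tendsto_ae atTop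
    (f := fun n y => T y (hξ.stronglyMeasurable_mk.approx n y)) (fun n => hs _) ?_
  filter_upwards [hξ.ae_eq_mk] with y hy
  rw [hy]
  exact ((T y).continuous.tendsto _).comp (hξ.stronglyMeasurable_mk.tendsto_approx y)

namespace IsFld

variable {T S : Y → H →L[ℂ] H'}

lemma memLp (hT : IsFld ν T) (ξ : Lp H 2 ν) : MemLp (fun y => T y (ξ y)) 2 ν := by
  obtain ⟨C, hC⟩ := hT.bdd
  refine MemLp.of_le_mul (c := C) (Lp.memLp ξ) (aesm_apply hT.meas (Lp.aestronglyMeasurable ξ)) ?_
  filter_upwards [hC] with y hy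
  exact (T y).le_of_opNorm_le hy _

lemma congr (hT : IsFld ν T) (h : T =ᵐ[ν] S) : IsFld ν S :=
  ⟨fun v => (hT.meas v).congr (h.mono fun y hy => by simp only [hy]),
    hT.bdd.imp fun C hC => by filter_upwards [hC, h] with y h1 h2 using h2 ▸ h1⟩

lemma const (A : H →L[ℂ] H') : IsFld ν (fun _ => A) :=
  ⟨fun _ => aestronglyMeasurable_const, ‖A‖, Eventually.of_forall fun _ => le_rfl⟩

lemma add (hT : IsFld ν T) (hS : IsFld ν S) : IsFld ν (fun y => T y + S y) := by
  obtain ⟨C, hC⟩ := hT.bdd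
  obtain ⟨D, hD⟩ := hS.bdd
  refine ⟨fun v => (hT.meas v).add (hS.meas v), C + D, ?_⟩
  filter_upwards [hC, hD] with y h1 h2 using (norm_add_le _ _).trans (add_le_add h1 h2)

lemma neg (hT : IsFld ν T) : IsFld ν (fun y => -T y) :=
  ⟨fun v => (hT.meas v).neg, hT.bdd.imp fun C hC => hC.mono fun y hy => by rwa [norm_neg]⟩

lemma sub (hT : IsFld ν T) (hS : IsFld ν S) : IsFld ν (fun y => T y - S y) := by
  simpa only [sub_eq_add_neg] using hT.add hS.neg

lemma smul (hT : IsFld ν T) {f : Y → ℂ} (hf : AEStronglyMeasurable f ν) {B : ℝ}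
    (hB : ∀ᵐ y ∂ν, ‖f y‖ ≤ B) : IsFld ν (fun y => f y • T y) := by
  obtain ⟨C, hC⟩ := hT.bdd
  refine ⟨fun v => hf.smul (hT.meas v), B * C, ?_⟩
  filter_upwards [hC, hB] with y h1 h2
  rw [norm_smul]
  exact mul_le_mul h2 h1 (norm_nonneg _) ((norm_nonneg _).trans h2)

lemma const_smul (hT : IsFld ν T) (c : ℂ) : IsFld ν (fun y => c • T y) :=
  hT.smul aestronglyMeasurable_const (Eventually.of_forall fun _ => le_rfl)

lemma sum {κ : Type*} (s : Finset κ) {T : κ → Y → H →L[ℂ] H'} (hT : ∀ k ∈ s, IsFld ν (T k)) :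
    IsFld ν (fun y => ∑ k ∈ s, T k y) := by
  classical
  induction s using Finset.induction_on with
  | empty => simpa using const 0
  | insert a s ha ih =>
    simp only [Finset.sum_insert ha]
    exact (hT a (by simp)).add (ih fun k hk => hT k (by simp [hk]))

lemma comp {R : Y → H' →L[ℂ] H''} (hR : IsFld ν R) (hT : IsFld ν T) :
    IsFld ν (fun y => R y ∘L T y) := by
  obtain ⟨C, hC⟩ := hT.bdd
  obtain ⟨D, hD⟩ := hR.bdd
  refine ⟨fun v => aesm_apply hR.meas (hT.meas v), D * C, ?_⟩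
  filter_upwards [hC, hD] with y h1 h2
  exact ((R y).opNorm_comp_le _).trans
    (mul_le_mul h2 h1 (norm_nonneg _) ((norm_nonneg _).trans h2))

lemma mul {R T : Y → H →L[ℂ] H} (hR : IsFld ν R) (hT : IsFld ν T) :
    IsFld ν (fun y => R y * T y) := hR.comp hT

lemma comp_qmp {Z : Type*} [MeasurableSpace Z] {ρ : Measure Z} (hT : IsFld ν T) {φ : Z → Y}
    (hφ : Measure.QuasiMeasurePreserving φ ρ ν) : IsFld ρ (fun z => T (φ z)) :=
  ⟨fun v => (hT.meas v).comp_quasiMeasurePreserving hφ, hT.bdd.imp fun _ hC => hφ.ae hC⟩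

/-- a bounded function of a measurable map into a countable set -/
lemma of_countable {K : Type*} [Countable K] [MeasurableSpace K] [DiscreteMeasurableSpace K]
    {c : Y → K} (hc : Measurable c) (Φ : K → H →L[ℂ] H') {C : ℝ} (hΦ : ∀ k, ‖Φ k‖ ≤ C) :
    IsFld ν (fun y => Φ (c y)) := by
  refine ⟨fun v => ?_, C, Eventually.of_forall fun y => hΦ _⟩
  have : StronglyMeasurable (fun k => Φ k v) := StronglyMeasurable.of_discrete
  exact (this.comp_measurable hc).aestronglyMeasurable

end IsFld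

open Classical in
/-- the operator on `L²` defined by a field (zero if the field is not admissible) -/
noncomputable def fld (ν : Measure Y) (T : Y → H →L[ℂ] H') : Lp H 2 ν →L[ℂ] Lp H' 2 ν :=
  if h : IsFld ν T then
    LinearMap.mkContinuousOfExistsBound
      { toFun := fun ξ => (h.memLp ξ).toLp _
        map_add' := fun ξ η => by
          refine Lp.ext ?_
          filter_upwards [(h.memLp (ξ + η)).coeFn_toLp, (h.memLp ξ).coeFn_toLp,
            (h.memLp η).coeFn_toLp, Lp.coeFn_add ξ η,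
            Lp.coeFn_add ((h.memLp ξ).toLp _) ((h.memLp η).toLp _)] with y h1 h2 h3 h4 h5
          rw [h1, h5, h4, Pi.add_apply, Pi.add_apply, h2, h3, map_add]
        map_smul' := fun c ξ => by
          refine Lp.ext ?_
          filter_upwards [(h.memLp (c • ξ)).coeFn_toLp, (h.memLp ξ).coeFn_toLp,
            Lp.coeFn_smul c ξ, Lp.coeFn_smul c ((h.memLp ξ).toLp _)] with y h1 h2 h3 h4
          rw [RingHom.id_apply, h1, h4, h3, Pi.smul_apply, Pi.smul_apply, h2, map_smul] }
      (by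
        obtain ⟨C, hC⟩ := h.bdd
        refine ⟨C, fun ξ => Lp.norm_le_mul_norm_of_ae_le_mul ?_⟩
        filter_upwards [(h.memLp ξ).coeFn_toLp, hC] with y h1 h2
        exact h1 ▸ (T y).le_of_opNorm_le h2 _)
  else 0

variable {T S : Y → H →L[ℂ] H'}

theorem IsFld.coeFn (hT : IsFld ν T) (ξ : Lp H 2 ν) : fld ν T ξ =ᵐ[ν] fun y => T y (ξ y) := by
  rw [fld, dif_pos hT]
  exact (hT.memLp ξ).coeFn_toLp

theorem norm_fld_le {C : ℝ} (hC0 : 0 ≤ C) (hC : ∀ᵐ y ∂ν, ‖T y‖ ≤ C) : ‖fld ν T‖ ≤ C := by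
  by_cases hT : IsFld ν T
  · refine ContinuousLinearMap.opNorm_le_bound _ hC0 fun ξ => Lp.norm_le_mul_norm_of_ae_le_mul ?_
    filter_upwards [hT.coeFn ξ, hC] with y h1 h2
    exact h1 ▸ (T y).le_of_opNorm_le h2 _
  · rw [fld, dif_neg hT]
    exact ContinuousLinearMap.opNorm_le_bound _ hC0 fun ξ => by simp; positivity


/-- an operator acting pointwise is the field operator -/
theorem eq_fld (hT : IsFld ν T) {A : Lp H 2 ν →L[ℂ] Lp H' 2 ν}
    (h : ∀ ξ, A ξ =ᵐ[ν] fun y => T y (ξ y)) : A = fld ν T := by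
  ext1 ξ
  exact Lp.ext ((h ξ).trans (hT.coeFn ξ).symm)




@[simp] theorem fld_zero : fld ν (fun _ => (0 : H →L[ℂ] H')) = 0 := by
  refine (eq_fld (IsFld.const _) fun ξ => ?_).symm
  exact Lp.coeFn_zero H' 2 ν

@[simp] theorem fld_one : fld ν (fun _ => (1 : H →L[ℂ] H)) = 1 :=
  (eq_fld (IsFld.const _) fun _ => Eventually.of_forall fun _ => rfl).symm


theorem fld_comp {R : Y → H' →L[ℂ] H''} (hR : IsFld ν R) (hT : IsFld ν T) :
    fld ν (fun y => R y ∘L T y) = fld ν R ∘L fld ν T := by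
  refine (eq_fld (hR.comp hT) fun ξ => ?_).symm
  filter_upwards [hR.coeFn (fld ν T ξ), hT.coeFn ξ] with y h1 h2
  rw [ContinuousLinearMap.comp_apply, h1, h2, ContinuousLinearMap.comp_apply]

theorem fld_mul {R T : Y → H →L[ℂ] H} (hR : IsFld ν R) (hT : IsFld ν T) :
    fld ν (fun y => R y * T y) = fld ν R * fld ν T := fld_comp hR hT

theorem IsFld.inner_fld (hT : IsFld ν T) (η : Lp H' 2 ν) (ξ : Lp H 2 ν) :
    ⟪η, fld ν T ξ⟫_ℂ = ∫ y, ⟪η y, T y (ξ y)⟫_ℂ ∂ν := by
  rw [L2.inner_def]
  refine integral_congr_ae ?_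
  filter_upwards [hT.coeFn ξ] with y hy
  rw [hy]

theorem norm_sq_eq_integral (ξ : Lp H 2 ν) : ‖ξ‖ ^ 2 = ∫ y, ‖ξ y‖ ^ 2 ∂ν := by
  have h := L2.inner_def (𝕜 := ℂ) ξ ξ
  simp only [inner_self_eq_norm_sq_to_K] at h
  have h2 : ∫ y, ((‖ξ y‖ : ℂ)) ^ 2 ∂ν = ((∫ y, ‖ξ y‖ ^ 2 ∂ν : ℝ) : ℂ) := by
    rw [← integral_complex_ofReal]; simp
  have h3 : ((‖ξ‖ ^ 2 : ℝ) : ℂ) = ((∫ y, ‖ξ y‖ ^ 2 ∂ν : ℝ) : ℂ) := by
    rw [← h2]; simpa using h
  exact_mod_cast h3

omit [InnerProductSpace ℂ H] in
theorem integrable_norm_sq (ξ : Lp H 2 ν) : Integrable (fun y => ‖ξ y‖ ^ 2) ν :=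
  (memLp_two_iff_integrable_sq_norm (Lp.aestronglyMeasurable ξ)).1 (Lp.memLp ξ)


theorem fld_adjoint [CompleteSpace H] [CompleteSpace H'] (hT : IsFld ν T)
    (hT' : IsFld ν fun y => ContinuousLinearMap.adjoint (T y)) :
    ContinuousLinearMap.adjoint (fld ν T) = fld ν fun y => ContinuousLinearMap.adjoint (T y) := by
  symm
  rw [ContinuousLinearMap.eq_adjoint_iff]
  intro η ξ
  rw [hT.inner_fld, L2.inner_def]
  refine integral_congr_ae ?_
  filter_upwards [hT'.coeFn η] with y hy
  rw [hy, ContinuousLinearMap.adjoint_inner_left]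

theorem star_fld [CompleteSpace H] {T : Y → H →L[ℂ] H} (hT : IsFld ν T)
    (hT' : IsFld ν fun y => star (T y)) : star (fld ν T) = fld ν fun y => star (T y) :=
  fld_adjoint hT hT'

theorem countable_of_orthonormal [SecondCountableTopology H] {κ : Type*} {b : κ → H}
    (hb : Orthonormal ℂ b) : Countable κ := by
  refine Pairwise.countable_of_isOpen_disjoint (s := fun i => Metric.ball (b i) (1 / 2))
    (fun i j hij => Metric.ball_disjoint_ball ?_) (fun _ => Metric.isOpen_ball)
    (fun _ => Metric.nonempty_ball.2 (by norm_num))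
  have h := norm_sub_sq (𝕜 := ℂ) (b i) (b j)
  rw [hb.inner_eq_zero hij, hb.norm_eq_one, hb.norm_eq_one] at h
  rw [dist_eq_norm]
  refine le_of_sq_le_sq ?_ (norm_nonneg _)
  rw [h]; norm_num

/-- for a separable target the adjoint field is automatically admissible -/
theorem IsFld.adjoint [CompleteSpace H] [CompleteSpace H'] [SecondCountableTopology H]
    (hT : IsFld ν T) : IsFld ν fun y => ContinuousLinearMap.adjoint (T y) := by
  refine ⟨fun w => ?_, hT.bdd.imp fun C hC => hC.mono fun y hy => by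
    rwa [LinearIsometryEquiv.norm_map]⟩
  obtain ⟨s, b, hb⟩ := exists_hilbertBasis ℂ H
  have : Countable s := countable_of_orthonormal b.orthonormal
  have hc : ∀ i : s, AEStronglyMeasurable
      (fun y => ⟪b i, ContinuousLinearMap.adjoint (T y) w⟫_ℂ • b i) ν := fun i => by
    simp only [ContinuousLinearMap.adjoint_inner_right]
    exact ((hT.meas (b i)).inner aestronglyMeasurable_const).smul_const _
  refine aestronglyMeasurable_of_tendsto_ae (atTop : Filter (Finset s))
    (f := fun F y => ∑ i ∈ F, ⟪b i, ContinuousLinearMap.adjoint (T y) w⟫_ℂ • b i)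
    (fun F => Finset.aestronglyMeasurable_fun_sum F fun i _ => hc i)
    (Eventually.of_forall fun y => ?_)
  have := b.hasSum_repr (ContinuousLinearMap.adjoint (T y) w)
  simp only [HilbertBasis.repr_apply_apply] at this
  exact this

end Crest.Agent.N111
end

-- ▼ part N111/Lat/Mautner
section

/-!
# Row 111: Mautner phenomenon, mixing and mean ergodic theorems for `SL(3, ℝ)`.
-/

set_option autoImplicit false

namespace Crest.Agent.N111

open Topology Filter
open scoped InnerProductSpace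

variable {H : Type*} [NormedAddCommGroup H] [InnerProductSpace ℂ H] {ρ : URep G H}

lemma tv_zpow {i j : Fin 3} (hij : i ≠ j) (b : ℝ) (n : ℤ) : tv hij b ^ n = tv hij (n * b) := by
  induction n using Int.induction_on with
  | zero => simp
  | succ n ih => rw [zpow_add_one, ih, ← tv_add]; push_cast; ring_nf
  | pred n ih => rw [zpow_sub_one, ih, tv_inv, ← tv_add]; push_cast; ring_nf

lemma dg_zpow (a b : ℝ) (n : ℤ) : dg a b ^ n = dg (n * a) (n * b) := by
  induction n using Int.induction_on with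
  | zero => simp
  | succ n ih => rw [zpow_add_one, ih, ← dg_add]; push_cast; ring_nf
  | pred n ih => rw [zpow_sub_one, ih, dg_inv, ← dg_add]; push_cast; ring_nf


lemma dgl_mul (s a b : ℝ) (i : Fin 3) : dgl (s * a) (s * b) i = s * dgl a b i := by
  fin_cases i <;> simp [dgl]; ring

lemma tendsto_dg_conj_tv {α : Type*} {l : Filter α} {a b : α → ℝ} {i j : Fin 3} (hij : i ≠ j)
    (h : Tendsto (fun t => dgl (a t) (b t) j - dgl (a t) (b t) i) l atTop) (x : ℝ) :
    Tendsto (fun t => dg (a t) (b t) * tv hij x * (dg (a t) (b t))⁻¹) l (𝓝 1) := by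
  simp only [dg_conj_tv]
  have h1 := (Real.tendsto_exp_neg_atTop_nhds_zero.comp h).mul_const x
  have h2 := ((continuous_tv hij).tendsto _).comp h1
  simpa [Function.comp_def] using h2

namespace URep.Cont

theorem tv_mem_of_dg (hρ : ρ.Cont) {v : H} {a b : ℝ} (h : dg a b ∈ ρ.stab v) {i j : Fin 3}
    (hij : i ≠ j) (hne : dgl a b i ≠ dgl a b j) (x : ℝ) : tv hij x ∈ ρ.stab v := by
  obtain ⟨e, he⟩ : ∃ e : ℤ, 0 < e * (dgl a b j - dgl a b i) := by
    rcases lt_or_gt_of_ne hne with h | h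
    · exact ⟨1, by simpa using h⟩
    · exact ⟨-1, by simpa using h⟩
  refine hρ.mautner (l := atTop) (a := fun n : ℕ => dg ((n * e : ℤ) * a) ((n * e : ℤ) * b))
    (fun n => dg_zpow a b _ ▸ zpow_mem h _) (tendsto_dg_conj_tv hij ?_ x)
  refine (tendsto_natCast_atTop_atTop.atTop_mul_const he).congr fun n => ?_
  rw [dgl_mul, dgl_mul]; push_cast; ring

theorem dg_mem_of_tv (hρ : ρ.Cont) {v : H} {i j : Fin 3} (hij : i ≠ j) {b : ℝ} (hb : b ≠ 0)
    (h : tv hij b ∈ ρ.stab v) : ∃ p q : ℝ, dg p q ∈ ρ.stab v ∧ Function.Injective (dgl p q) := by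
  let e : Fin 3 → ℝ := fun k => if k = i then Real.log 2 else if k = j then -Real.log 2 else 0
  have he : dgl (e 0) (e 1) = e := by
    ext k
    fin_cases i <;> fin_cases j <;> simp at hij <;> fin_cases k <;> simp [dgl, e]
  have hl : 0 < Real.log 2 := Real.log_pos one_lt_two
  refine ⟨e 0, e 1, ?_, ?_⟩
  · have key : ∀ n : ℕ, tv hij b ^ (2 * (n + 1) : ℤ) * tv hij.symm (1 / (2 * (n + 1) * b))
        * tv hij b ^ (-(n + 1) : ℤ) = dg (e 0) (e 1) * tv hij.symm (1 / ((n + 1) * b)) := by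
      intro n
      have hn : (n : ℝ) + 1 ≠ 0 := by positivity
      rw [tv_zpow, tv_zpow]
      ext p q
      simp only [mul_tv_apply, tv_apply, dg_apply, he, e]
      fin_cases i <;> fin_cases j <;> simp at hij <;> fin_cases p <;> fin_cases q <;>
        simp [Real.exp_neg, Real.exp_log] <;> field_simp <;> ring
    have h0 : Tendsto (fun n : ℕ => 1 / (((n : ℝ) + 1) * b)) atTop (𝓝 0) := by
      simpa [mul_comm] using tendsto_one_div_add_atTop_nhds_zero_nat.mul_const b⁻¹
    have h0' : Tendsto (fun n : ℕ => 1 / (2 * ((n : ℝ) + 1) * b)) atTop (𝓝 0) := by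
      refine (zero_div (2 : ℝ) ▸ h0.div_const 2).congr fun n => ?_
      rw [div_div]; ring_nf
    have h1 := hρ.tendsto_one (u := fun n : ℕ => tv hij.symm (1 / (2 * ((n : ℝ) + 1) * b)))
      (tv_zero hij.symm ▸ ((continuous_tv hij.symm).tendsto 0).comp h0') v
    have h2 : Tendsto (fun n : ℕ => dg (e 0) (e 1) * tv hij.symm (1 / ((n + 1) * b))) atTop
        (𝓝 (dg (e 0) (e 1))) := by
      simpa using (((continuous_tv hij.symm).tendsto 0).comp h0).const_mul (dg (e 0) (e 1))
    have h3 := ((((hρ v).tendsto _).comp h2).sub_const v).norm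
    refine sub_eq_zero.1 (norm_eq_zero.1 (tendsto_nhds_unique h3 (h1.congr fun n => ?_)))
    simp only [Function.comp_apply, ← key, ρ.norm_conj_sub (zpow_mem h _) (zpow_mem h _)]
  · rw [he]
    intro k l hkl
    simp only [e] at hkl
    fin_cases i <;> fin_cases j <;> simp at hij <;> fin_cases k <;> fin_cases l <;>
      simp at hkl ⊢ <;> linarith

/-- a vector fixed by one non-trivial elementary matrix is `G`-invariant -/
theorem fix_of_tv (hρ : ρ.Cont) {v : H} {i j : Fin 3} (hij : i ≠ j) {b : ℝ} (hb : b ≠ 0)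
    (h : ρ (tv hij b) v = v) : v ∈ ρ.fix := by
  obtain ⟨p, q, h1, h2⟩ := hρ.dg_mem_of_tv hij hb h
  have := subgroup_eq_top (ρ.stab v) fun k l hkl x => hρ.tv_mem_of_dg h1 hkl (h2.ne hkl) x
  exact fun g => (this ▸ Subgroup.mem_top g : g ∈ ρ.stab v)


theorem fix_of_conj {v : H} {u : G} (hu : ∀ w, ρ u w = w → w ∈ ρ.fix) (g : G)
    (h : ρ (g * u * g⁻¹) v = v) : v ∈ ρ.fix := by
  have h1 : ρ g⁻¹ v ∈ ρ.fix := hu _ (by
    conv_rhs => rw [← h]
    simp only [← ρ.mul_apply, mul_assoc, inv_mul_cancel_left])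
  have h2 : v = ρ g⁻¹ v := by rw [← h1 g, ρ.apply_inv_apply]
  exact h2 ▸ h1

theorem fix_of_conj_tv (hρ : ρ.Cont) {v : H} {i j : Fin 3} (hij : i ≠ j) {b : ℝ} (hb : b ≠ 0)
    (g : G) (h : ρ (g * tv hij b * g⁻¹) v = v) : v ∈ ρ.fix :=
  fix_of_conj (fun _ => hρ.fix_of_tv hij hb) g h


variable [CompleteSpace H]

/-- **Mixing**, abstract form: `a t` contracts some element `u` whose fixed vectors are invariant. -/
theorem mixing_of (hρ : ρ.Cont) {α : Type*} {l : Filter α} {a : α → G} {u : G}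
    (hu : ∀ w, ρ u w = w → w ∈ ρ.fix) (h : Tendsto (fun t => (a t)⁻¹ * u * a t) l (𝓝 1)) :
    WTends l (fun t => ρ (a t)) ρ.P := by
  intro w v
  have key : Tendsto (fun t => ⟪w, ρ (a t) (v - ρ.P v)⟫_ℂ) l (𝓝 0) := by
    refine tendsto_iff_ultrafilter _ _ _ |>.2 fun U hU => ?_
    obtain ⟨z, -, hz⟩ := exists_wlim_vec U (x := fun t => ρ (a t) (v - ρ.P v))
      (Eventually.of_forall fun t => (ρ.norm_map _ _).le)
    have h1 : ρ u z = z := by
      refine ext_inner_left ℂ fun y => ?_
      rw [ρ.inner_right]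
      refine tendsto_nhds_unique (hz _) ?_
      have h2 : Tendsto (fun t => ⟪y, ρ (a t) (ρ ((a t)⁻¹ * u * a t) (v - ρ.P v) - (v - ρ.P v))⟫_ℂ)
          U (𝓝 0) := by
        refine squeeze_zero_norm (fun t => norm_inner_le_norm _ _) ?_
        simp only [ρ.norm_map]
        simpa using ((hρ.tendsto_one h (v - ρ.P v)).mono_left hU).const_mul ‖y‖
      have h3 := h2.add (hz y)
      rw [zero_add] at h3
      refine h3.congr fun t => ?_
      rw [map_sub, inner_sub_right, sub_add_cancel, ← ρ.inner_right, ← ρ.mul_apply,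
        ← ρ.mul_apply, mul_assoc, mul_inv_cancel_left]
    have h4 := hu z h1
    have h5 : ⟪z, z⟫_ℂ = 0 := by
      refine tendsto_nhds_unique (hz z) (tendsto_const_nhds.congr fun t => ?_)
      rw [ρ.inner_right, h4, ρ.inner_sub_P h4]
    have := hz w
    rwa [inner_self_eq_zero.1 h5, inner_zero_right] at this
  have := key.add_const ⟪w, ρ.P v⟫_ℂ
  rw [zero_add] at this
  refine this.congr fun t => ?_
  rw [map_sub, inner_sub_right, ρ.apply_P, sub_add_cancel]

/-- **Mixing along diagonal families** (Howe–Moore for `A`). -/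
theorem mixing (hρ : ρ.Cont) {α : Type*} {l : Filter α} {a b : α → ℝ} {i j : Fin 3}
    (h : Tendsto (fun t => dgl (a t) (b t) i - dgl (a t) (b t) j) l atTop) :
    WTends l (fun t => ρ (dg (a t) (b t))) ρ.P := by
  rcases l.eq_or_neBot with rfl | hl
  · exact fun _ _ => tendsto_bot
  have hij : i ≠ j := by
    rintro rfl
    simp only [sub_self] at h
    exact not_tendsto_const_atTop _ _ h
  refine hρ.mixing_of (u := tv hij 1) (fun _ => hρ.fix_of_tv hij one_ne_zero) ?_
  have := tendsto_dg_conj_tv (l := l) (a := fun t => -a t) (b := fun t => -b t) hij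
    (h.congr fun t => by rw [dgl_neg, dgl_neg]; ring) 1
  simpa only [dg_inv, neg_neg] using this




end URep.Cont

end Crest.Agent.N111
end

-- ▼ part N111/Lat/Ind

/-!
# Row 111: the induced representation on `L²(X; H)`.

`(ind π g ξ)(x) = π (coc g (g⁻¹ • x)) (ξ (g⁻¹ • x))`, i.e. `(ind π g ξ)(g • x) = π (coc g x) (ξ x)`.
-/

set_option autoImplicit false

namespace Crest.Agent.N111

open MeasureTheory Topology Filter
open scoped ENNReal InnerProductSpace symmDiff

variable {H H' : Type*} [NormedAddCommGroup H] [InnerProductSpace ℂ H]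
  [NormedAddCommGroup H'] [InnerProductSpace ℂ H']

/-- `L²(X; H)` -/
abbrev L2X (H : Type*) [NormedAddCommGroup H] : Type _ := Lp H 2 μ

lemma ae_smul (g : G) {p : X → Prop} (h : ∀ᵐ x ∂μ, p x) : ∀ᵐ x ∂μ, p (g • x) :=
  (measurePreserving_smul g).quasiMeasurePreserving.ae h


lemma isFld_coc (Φ : Γ → H →L[ℂ] H') {C : ℝ} (hΦ : ∀ γ, ‖Φ γ‖ ≤ C) (g : G) :
    IsFld μ fun x => Φ (coc g x) :=
  IsFld.of_countable (measurable_coc measurable_const measurable_id) Φ hΦ

lemma IsFld.smul_arg {T : X → H →L[ℂ] H'} (hT : IsFld μ T) (g : G) : IsFld μ fun x => T (g • x) :=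
  hT.comp_qmp (measurePreserving_smul g).quasiMeasurePreserving

/-- translation `(tr g ξ)(x) = ξ (g⁻¹ • x)` -/
noncomputable def tr (H : Type*) [NormedAddCommGroup H] [InnerProductSpace ℂ H] (g : G) :
    L2X H →L[ℂ] L2X H :=
  (Lp.compMeasurePreservingₗᵢ ℂ (fun x : X => g⁻¹ • x)
    (measurePreserving_smul g⁻¹)).toContinuousLinearMap

lemma tr_coeFn (g : G) (ξ : L2X H) : tr H g ξ =ᵐ[μ] fun x => ξ (g⁻¹ • x) :=
  Lp.coeFn_compMeasurePreserving ξ (measurePreserving_smul g⁻¹)

/-- the operators of the induced representation -/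
noncomputable def indOp (π : URep Γ H) (g : G) : L2X H →L[ℂ] L2X H :=
  fld μ (fun x => π (coc g⁻¹ x)⁻¹) * tr H g

lemma indOp_coeFn (π : URep Γ H) (g : G) (ξ : L2X H) :
    indOp π g ξ =ᵐ[μ] fun x => π (coc g (g⁻¹ • x)) (ξ (g⁻¹ • x)) := by
  filter_upwards [(isFld_coc (fun γ => π γ⁻¹) (fun _ => π.norm_le _) g⁻¹).coeFn (tr H g ξ),
    tr_coeFn g ξ] with x h1 h2
  rw [coc_inv', ← h2, ← h1]
  rfl

/-- the induced representation -/
noncomputable def ind (π : URep Γ H) : URep G (L2X H) :=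
  URep.mk' (indOp π)
    (by
      ext1 ξ
      refine Lp.ext ((indOp_coeFn π 1 ξ).trans (Eventually.of_forall fun x => ?_))
      simp)
    (fun g h => by
      ext1 ξ
      refine Lp.ext ?_
      filter_upwards [indOp_coeFn π (g * h) ξ, indOp_coeFn π g (indOp π h ξ),
        ae_smul g⁻¹ (indOp_coeFn π h ξ)] with x h1 h2 h3
      rw [h1, mul_apply_eq_comp, h2, h3, ← π.mul_apply, coc_mul, mul_inv_rev, mul_smul,
        smul_inv_smul])
    (fun g ξ => by
      rw [← Lp.norm_compMeasurePreserving ξ (measurePreserving_smul g⁻¹)]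
      have h : ∀ᵐ x ∂μ, ‖indOp π g ξ x‖
          = ‖Lp.compMeasurePreserving _ (measurePreserving_smul g⁻¹) ξ x‖ := by
        filter_upwards [indOp_coeFn π g ξ,
          Lp.coeFn_compMeasurePreserving ξ (measurePreserving_smul g⁻¹)] with x h1 h2
        rw [h1, h2, π.norm_map, Function.comp_apply]
      exact le_antisymm (Lp.norm_le_norm_of_ae_le (h.mono fun _ h => h.le))
        (Lp.norm_le_norm_of_ae_le (h.mono fun _ h => h.ge)))

theorem ind_coeFn (π : URep Γ H) (g : G) (ξ : L2X H) :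
    ind π g ξ =ᵐ[μ] fun x => π (coc g (g⁻¹ • x)) (ξ (g⁻¹ • x)) := indOp_coeFn π g ξ

theorem ind_coeFn' (π : URep Γ H) (g : G) (ξ : L2X H) :
    ∀ᵐ x ∂μ, ind π g ξ (g • x) = π (coc g x) (ξ x) := by
  filter_upwards [ae_smul g (ind_coeFn π g ξ)] with x hx
  simpa using hx

theorem ind_eq (π : URep Γ H) (g : G) : ind π g = fld μ (fun x => π (coc g⁻¹ x)⁻¹) * tr H g := rfl

theorem ind_triv (g : G) : ind (URep.triv Γ H) g = tr H g := by simp [ind_eq]

theorem tr_mul_fld {T : X → H →L[ℂ] H'} (hT : IsFld μ T) (g : G) :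
    tr H' g ∘L fld μ T = fld μ (fun x => T (g⁻¹ • x)) ∘L tr H g := by
  ext1 ξ
  refine Lp.ext ?_
  filter_upwards [tr_coeFn g (fld μ T ξ), ae_smul g⁻¹ (hT.coeFn ξ),
    (hT.smul_arg g⁻¹).coeFn (tr H g ξ), tr_coeFn g ξ] with x h1 h2 h3 h4
  rw [ContinuousLinearMap.comp_apply, ContinuousLinearMap.comp_apply, h1, h2, h3, h4]

theorem ind_eq' (π : URep Γ H) (g : G) : ind π g = tr H g * fld μ (fun x => π (coc g x)) := by
  have := tr_mul_fld (isFld_coc π (fun _ => π.norm_le _) g) g
  simp only [coc_inv'] at this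
  exact this.symm

lemma IsFld.conj {T : X → H →L[ℂ] H'} (hT : IsFld μ T) (π : URep Γ H) (π' : URep Γ H') (g : G) :
    IsFld μ fun x => π' (coc g⁻¹ x)⁻¹ ∘L T (g⁻¹ • x) ∘L π (coc g⁻¹ x) :=
  (isFld_coc (fun γ => π' γ⁻¹) (fun _ => π'.norm_le _) g⁻¹).comp
    ((hT.smul_arg g⁻¹).comp (isFld_coc π (fun _ => π.norm_le _) g⁻¹))

/-- covariance of fields under the induced representations -/
theorem ind_fld {T : X → H →L[ℂ] H'} (hT : IsFld μ T) (π : URep Γ H) (π' : URep Γ H') (g : G) :
    ind π' g ∘L fld μ T ∘L ind π g⁻¹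
      = fld μ fun x => π' (coc g⁻¹ x)⁻¹ ∘L T (g⁻¹ • x) ∘L π (coc g⁻¹ x) := by
  refine eq_fld (hT.conj π π' g) fun ξ => ?_
  filter_upwards [ind_coeFn π' g (fld μ T (ind π g⁻¹ ξ)), ae_smul g⁻¹ (hT.coeFn (ind π g⁻¹ ξ)),
    ind_coeFn' π g⁻¹ ξ] with x h1 h2 h3
  simp only [ContinuousLinearMap.comp_apply]
  rw [h1, h2, h3, coc_inv']

/-- amplification of an operator -/
noncomputable def amp (A : H →L[ℂ] H') : L2X H →L[ℂ] L2X H' := fld μ fun _ => A

lemma amp_coeFn (A : H →L[ℂ] H') (ξ : L2X H) : amp A ξ =ᵐ[μ] fun x => A (ξ x) :=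
  (IsFld.const A).coeFn ξ


lemma amp_mul (A B : H →L[ℂ] H) : amp (A * B) = amp A * amp B :=
  fld_mul (IsFld.const A) (IsFld.const B)

@[simp] lemma amp_one : amp (1 : H →L[ℂ] H) = 1 := fld_one



lemma star_amp [CompleteSpace H] (A : H →L[ℂ] H) : star (amp A) = amp (star A) :=
  star_fld (IsFld.const A) (IsFld.const _)

theorem ind_amp {π : URep Γ H} {π' : URep Γ H'} {A : H →L[ℂ] H'}
    (hA : ∀ γ, π' γ ∘L A = A ∘L π γ) (g : G) : ind π' g ∘L amp A = amp A ∘L ind π g := by
  ext1 ξ
  refine Lp.ext ?_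
  filter_upwards [ind_coeFn π' g (amp A ξ), ae_smul g⁻¹ (amp_coeFn A ξ),
    amp_coeFn A (ind π g ξ), ind_coeFn π g ξ] with x h1 h2 h3 h4
  simp only [ContinuousLinearMap.comp_apply]
  rw [h1, h2, h3, h4]
  exact congrArg (fun B : H →L[ℂ] H' => B _) (hA _)

/-- amplification of a representation of another group -/
noncomputable def ampRep {K : Type*} [Group K] (σ : URep K H) : URep K (L2X H) :=
  URep.mk' (fun k => amp (σ k)) (by simp) (by simp [amp_mul]) fun k ξ =>
    le_antisymm
      (Lp.norm_le_norm_of_ae_le ((amp_coeFn (σ k) ξ).mono fun x hx => by rw [hx, σ.norm_map]))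
      (Lp.norm_le_norm_of_ae_le ((amp_coeFn (σ k) ξ).mono fun x hx => by rw [hx, σ.norm_map]))

@[simp] lemma ampRep_apply {K : Type*} [Group K] (σ : URep K H) (k : K) :
    ampRep σ k = amp (σ k) := rfl

theorem norm_le_of_support {Y : Type*} [MeasurableSpace Y] {ν : Measure Y} (ξ : Lp H 2 ν)
    {B : Set Y} (hB : MeasurableSet B) (hB' : ν B ≠ ∞) {C : ℝ} (hC : 0 ≤ C)
    (h1 : ∀ᵐ y ∂ν, ‖ξ y‖ ≤ C) (h2 : ∀ᵐ y ∂ν, y ∉ B → ξ y = 0) :
    ‖ξ‖ ≤ C * Real.sqrt (ν.real B) := by
  refine le_of_sq_le_sq ?_ (by positivity)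
  rw [norm_sq_eq_integral, mul_pow, Real.sq_sqrt measureReal_nonneg, mul_comm, ← smul_eq_mul,
    ← integral_indicator_const _ hB]
  refine integral_mono_ae (integrable_norm_sq ξ)
    ((integrable_indicator_iff hB).2 (integrableOn_const hB')) ?_
  filter_upwards [h1, h2] with y h1 h2
  by_cases hy : y ∈ B
  · rw [Set.indicator_of_mem hy]; gcongr
  · simp [hy, h2 hy]

/-- **The induced representation is strongly continuous.** -/
theorem ind_cont (π : URep Γ H) : (ind π).Cont := by
  refine URep.cont_of_dense (Lp.simpleFunc.dense (by norm_num)) fun ξ hξ => ?_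
  refine Lp.simpleFunc.induction (p := 2) (by norm_num) (by norm_num)
    (P := fun ξ => Tendsto (fun g => ind π g (ξ : L2X H)) (𝓝 1) (𝓝 (ξ : L2X H))) ?_ ?_ ⟨ξ, hξ⟩
  · intro v A hA hA'
    rw [Lp.simpleFunc.coe_indicatorConst, tendsto_iff_norm_sub_tendsto_zero]
    let B : G → Set X := fun u => {x | coc u x ≠ 1} ∪ ((fun x => u • x) ⁻¹' A) ∆ A
    have hB : ∀ u, MeasurableSet (B u) := fun u => (measurableSet_coc u {γ | γ ≠ 1}).union
      (((measurePreserving_smul u).measurable hA).symmDiff hA)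
    have h1 : Tendsto (fun u => μ (B u)) (𝓝 1) (𝓝 0) := by
      have := tendsto_coc_ne_one.add (tendsto_smul_symmDiff hA)
      rw [add_zero] at this
      exact tendsto_of_tendsto_of_tendsto_of_le_of_le tendsto_const_nhds this (fun _ => bot_le)
        fun u => measure_union_le _ _
    have h2 : Tendsto (fun g : G => 2 * ‖v‖ * Real.sqrt (μ.real (B g⁻¹))) (𝓝 1) (𝓝 0) := by
      have h3 := ((ENNReal.tendsto_toReal ENNReal.zero_ne_top).comp
        (h1.comp (continuous_inv.tendsto' (1 : G) 1 inv_one))).sqrt.const_mul (2 * ‖v‖)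
      simpa [Measure.real] using h3
    refine squeeze_zero (fun _ => norm_nonneg _) (fun g => ?_) h2
    set ξ := indicatorConstLp 2 hA hA'.ne v
    have e : ∀ᵐ x ∂μ, (ind π g ξ - ξ) x = π (coc g⁻¹ x)⁻¹ (A.indicator (fun _ => v) (g⁻¹ • x))
        - A.indicator (fun _ => v) x := by
      filter_upwards [Lp.coeFn_sub (ind π g ξ) ξ, ind_coeFn π g ξ,
        indicatorConstLp_coeFn (p := 2) (hs := hA) (hμs := hA'.ne) (c := v),
        ae_smul g⁻¹ (indicatorConstLp_coeFn (p := 2) (hs := hA) (hμs := hA'.ne) (c := v))]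
        with x h1 h2 h3 h4
      rw [h1, Pi.sub_apply, h2, coc_inv', h3, h4]
    refine norm_le_of_support _ (hB g⁻¹) (measure_ne_top _ _) (by positivity)
      (e.mono fun x hx => ?_) (e.mono fun x hx hx' => ?_)
    · rw [hx]
      refine (norm_sub_le _ _).trans ?_
      rw [π.norm_map, two_mul]
      exact add_le_add (norm_indicator_le_norm_self _ _) (norm_indicator_le_norm_self _ _)
    · simp only [B, Set.mem_union, Set.mem_ofPred_eq, not_or, not_not, Set.mem_symmDiff,
        Set.mem_preimage, not_and] at hx'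
      rw [hx, hx'.1]
      by_cases hxA : x ∈ A
      · simp [hxA, hx'.2.2 hxA]
      · have : g⁻¹ • x ∉ A := fun h => hxA (hx'.2.1 h)
        simp [hxA, this]
  · intro f g hf hg _ h1 h2
    simpa only [AddSubgroup.coe_add, map_add] using h1.add h2

/-! ### constant fields and invariant vectors -/

/-- the constant vector field -/
noncomputable def cst (H : Type*) [NormedAddCommGroup H] [InnerProductSpace ℂ H] :
    H →L[ℂ] L2X H := Lp.constL 2 μ ℂ

lemma cst_coeFn (v : H) : cst H v =ᵐ[μ] fun _ => v := Lp.coeFn_const 2 μ v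

@[simp] lemma norm_cst (v : H) : ‖cst H v‖ = ‖v‖ := by
  have : cst H v = Lp.const 2 μ v := rfl
  rw [this, Lp.norm_const' 2 μ v (by norm_num) (by norm_num)]
  simp

lemma inner_cst_left (v : H) (ξ : L2X H) : ⟪cst H v, ξ⟫_ℂ = ∫ x, ⟪v, ξ x⟫_ℂ ∂μ := by
  rw [L2.inner_def]
  exact integral_congr_ae ((cst_coeFn v).mono fun x hx => by simp only [hx])

@[simp] lemma inner_cst_cst (v w : H) : ⟪cst H v, cst H w⟫_ℂ = ⟪v, w⟫_ℂ := by
  rw [inner_cst_left, integral_congr_ae ((cst_coeFn w).mono fun x hx => by rw [hx])]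
  simp

@[simp] lemma amp_cst (A : H →L[ℂ] H') (v : H) : amp A (cst H v) = cst H' (A v) := by
  refine Lp.ext ?_
  filter_upwards [amp_coeFn A (cst H v), cst_coeFn v, cst_coeFn (A v)] with x h1 h2 h3
  rw [h1, h2, h3]

@[simp] lemma tr_cst (g : G) (v : H) : tr H g (cst H v) = cst H v := by
  refine Lp.ext ?_
  filter_upwards [tr_coeFn g (cst H v), cst_coeFn v, ae_smul g⁻¹ (cst_coeFn v)] with x h1 h2 h3
  rw [h1, h2, h3]

lemma ind_cst_coeFn (π : URep Γ H) (g : G) (v : H) :
    ind π g (cst H v) =ᵐ[μ] fun x => π (coc g⁻¹ x)⁻¹ v := by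
  filter_upwards [ind_coeFn π g (cst H v), ae_smul g⁻¹ (cst_coeFn v)] with x h1 h2
  rw [h1, h2, coc_inv']

theorem cst_mem_fix {π : URep Γ H} {v : H} (hv : v ∈ π.fix) : cst H v ∈ (ind π).fix := fun g => by
  refine Lp.ext ?_
  filter_upwards [ind_cst_coeFn π g v, cst_coeFn v] with x h1 h2
  rw [h1, h2, hv]

/-- a measurable function on `G` that is a.e. invariant under every left translation is constant -/
theorem ae_const_of_mul_invariant {E : Type*} [TopologicalSpace E] [TopologicalSpace.MetrizableSpace E]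
    {F : G → E} (hF : StronglyMeasurable F) (h : ∀ g, ∀ᵐ k ∂m, F (g * k) = F k) :
    ∃ v, ∀ᵐ g ∂m, F g = v := by
  have hm : MeasurableSet {p : G × G | F (p.1 * p.2) = F p.2} :=
    (hF.comp_measurable (by fun_prop)).measurableSet_eq_fun (hF.comp_measurable measurable_snd)
  have h1 := (Measure.ae_ae_comm (μ := m) (ν := m) (p := fun g k => F (g * k) = F k) hm).1
    (Eventually.of_forall h)
  obtain ⟨k, hk⟩ := h1.exists
  refine ⟨F k, ?_⟩
  simpa using (measurePreserving_mul_right m k⁻¹).quasiMeasurePreserving.ae hk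

lemma sm_apply {Y : Type*} [MeasurableSpace Y] {T : Y → H →L[ℂ] H'}
    (hT : ∀ v, StronglyMeasurable fun y => T y v) {ξ : Y → H} (hξ : StronglyMeasurable ξ) :
    StronglyMeasurable fun y => T y (ξ y) := by
  have hs : ∀ s : SimpleFunc Y H, StronglyMeasurable (fun y => T y (s y)) := fun s => by
    induction s using SimpleFunc.induction with
    | @const c A hA =>
      convert (hT c).indicator hA using 2 with y
      by_cases hy : y ∈ A <;> simp [hy]
    | @add f g _ hf hg =>
      convert hf.add hg using 2 with y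
      simp
  exact stronglyMeasurable_of_tendsto atTop (f := fun n y => T y (hξ.approx n y)) (fun n => hs _)
    (tendsto_pi_nhds.2 fun y => ((T y).continuous.tendsto _).comp (hξ.tendsto_approx y))

/-- **Invariant vectors of an induced representation.** -/
theorem mem_fix_ind {π : URep Γ H} {ξ : L2X H} :
    ξ ∈ (ind π).fix ↔ ∃ v ∈ π.fix, ξ = cst H v := by
  refine ⟨fun h => ?_, by rintro ⟨v, hv, rfl⟩; exact cst_mem_fix hv⟩
  have hξ := Lp.stronglyMeasurable ξ
  have hF : StronglyMeasurable fun k : G => π (cc k)⁻¹ (ξ (pr k)) := by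
    refine sm_apply (T := fun k => π (cc k)⁻¹) (fun v => ?_) (hξ.comp_measurable measurable_pr)
    exact (StronglyMeasurable.of_discrete (f := fun γ : Γ => π γ⁻¹ v)).comp_measurable
      measurable_cc
  obtain ⟨v, hv⟩ := ae_const_of_mul_invariant hF fun g => by
    filter_upwards [quasiMeasurePreserving_pr.ae (ind_coeFn' π g ξ)] with k hk
    rw [h g, smul_pr, coc_pr] at hk
    rw [hk, ← π.mul_apply, inv_mul_cancel_left]
  have h2 := ae_pr_iff.1 hv
  simp only [cc_mul_ι, cc_sec, one_mul, pr_mul_ι, pr_sec] at h2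
  have h3 : ∀ᵐ x ∂μ, ξ x = v := by simpa using h2 1
  refine ⟨v, fun γ => ?_, Lp.ext (EventuallyEq.trans h3 (cst_coeFn v).symm)⟩
  obtain ⟨x, hx1, hx2⟩ := ((h2 γ⁻¹).and h3).exists
  rwa [inv_inv, hx2] at hx1



end Crest.Agent.N111
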