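import Mathlib

/-!
# Row 111, lattice foundations I: the group `G = SL(3, ℝ)`, `Γ = SL(3, ℤ)`, Haar measure.
-/

set_option autoImplicit false

namespace Crest.Agent.N111

open MeasureTheory Topology Filter Matrix
open scoped ENNReal NNReal

/-- `G = SL(3, ℝ)` -/
abbrev G : Type := Matrix.SpecialLinearGroup (Fin 3) ℝ

/-- `Γ = SL(3, ℤ)` -/
abbrev Γ : Type := Matrix.SpecialLinearGroup (Fin 3) ℤ

/-- the inclusion `Γ → G` -/
def ι : Γ →* G := Matrix.SpecialLinearGroup.map (Int.castRingHom ℝ)

@[simp] lemma ι_apply (γ : Γ) (i j : Fin 3) : (ι γ) i j = ((γ i j : ℤ) : ℝ) := rfl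


lemma ι_injective : Function.Injective ι := by
  intro a b h
  ext i j
  have := congrArg (fun g : G => g i j) h
  simpa using this

instance : Countable Γ := by
  have : Countable (Matrix (Fin 3) (Fin 3) ℤ) := inferInstanceAs (Countable (Fin 3 → Fin 3 → ℤ))
  exact inferInstanceAs (Countable {A : Matrix (Fin 3) (Fin 3) ℤ // A.det = 1})

instance : MeasurableSpace Γ := ⊤
instance : DiscreteMeasurableSpace Γ := ⟨fun _ => trivial⟩

lemma isClosedEmbedding_val :
    IsClosedEmbedding ((↑) : G → Matrix (Fin 3) (Fin 3) ℝ) :=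
  Matrix.SpecialLinearGroup.isClosedEmbedding_val

instance : LocallyCompactSpace G := by
  have : LocallyCompactSpace (Matrix (Fin 3) (Fin 3) ℝ) :=
    inferInstanceAs (LocallyCompactSpace (Fin 3 → Fin 3 → ℝ))
  exact isClosedEmbedding_val.locallyCompactSpace

instance : SecondCountableTopology G := by
  have : SecondCountableTopology (Matrix (Fin 3) (Fin 3) ℝ) :=
    inferInstanceAs (SecondCountableTopology (Fin 3 → Fin 3 → ℝ))
  exact isClosedEmbedding_val.isEmbedding.secondCountableTopology

instance : T2Space G := isClosedEmbedding_val.isEmbedding.t2Space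

instance : PolishSpace G := by
  have : PolishSpace (Matrix (Fin 3) (Fin 3) ℝ) :=
    inferInstanceAs (PolishSpace (Fin 3 → Fin 3 → ℝ))
  exact isClosedEmbedding_val.polishSpace

instance : MeasurableSpace G := borel G
instance : BorelSpace G := ⟨rfl⟩

@[fun_prop] lemma continuous_entry (i j : Fin 3) : Continuous fun g : G => g i j :=
  (continuous_apply_apply i j).comp isClosedEmbedding_val.continuous

@[fun_prop] lemma measurable_entry (i j : Fin 3) : Measurable fun g : G => g i j :=
  (continuous_entry i j).measurable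

lemma continuous_G {α : Type*} [TopologicalSpace α] {f : α → G}
    (h : ∀ i j, Continuous fun a => f a i j) : Continuous f :=
  isClosedEmbedding_val.isInducing.continuous_iff.2
    (continuous_pi fun i => continuous_pi fun j => h i j)

lemma tendsto_G {α : Type*} {l : Filter α} {f : α → G} {g : G}
    (h : ∀ i j, Tendsto (fun a => f a i j) l (𝓝 (g i j))) : Tendsto f l (𝓝 g) :=
  isClosedEmbedding_val.isInducing.tendsto_nhds_iff.2
    (tendsto_pi_nhds.2 fun i => tendsto_pi_nhds.2 fun j => h i j)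

lemma mul_entry (g h : G) (i j : Fin 3) :
    (g * h) i j = g i 0 * h 0 j + g i 1 * h 1 j + g i 2 * h 2 j := by
  have : (g * h) i j = ((g : Matrix (Fin 3) (Fin 3) ℝ) * (h : Matrix (Fin 3) (Fin 3) ℝ)) i j := rfl
  rw [this, Matrix.mul_apply, Fin.sum_univ_three]

lemma det_entry (g : G) :
    g 0 0 * g 1 1 * g 2 2 - g 0 0 * g 1 2 * g 2 1 - g 0 1 * g 1 0 * g 2 2
      + g 0 1 * g 1 2 * g 2 0 + g 0 2 * g 1 0 * g 2 1 - g 0 2 * g 1 1 * g 2 0 = 1 := by
  have := g.2
  rw [Matrix.det_fin_three] at this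
  exact this

/-- the box of matrices with entries bounded by `R` -/
def box (R : ℝ) : Set G := {g | ∀ i j, |g i j| ≤ R}

lemma isCompact_box (R : ℝ) : IsCompact (box R) := by
  have h : IsCompact (Set.pi Set.univ fun _ : Fin 3 => Set.pi Set.univ fun _ : Fin 3 =>
      Set.Icc (-R) R) :=
    isCompact_univ_pi fun _ => isCompact_univ_pi fun _ => isCompact_Icc
  have h2 := isClosedEmbedding_val.isCompact_preimage
    (K := (Set.pi Set.univ fun _ : Fin 3 => Set.pi Set.univ fun _ : Fin 3 => Set.Icc (-R) R)) h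
  refine h2.of_isClosed_subset ?_ (fun g hg i _ j _ => abs_le.1 (hg i j))
  simp only [box, Set.ofPred_forall]
  exact isClosed_iInter fun i => isClosed_iInter fun j =>
    isClosed_le (by fun_prop) continuous_const

lemma exists_subset_box {K : Set G} (hK : IsCompact K) : ∃ R, 0 ≤ R ∧ K ⊆ box R := by
  have : ∀ p : Fin 3 × Fin 3, ∃ R : ℝ, ∀ g ∈ K, |g p.1 p.2| ≤ R := fun p => by
    obtain ⟨R, hR⟩ := hK.bddAbove_image (f := fun g : G => |g p.1 p.2|)
      (by fun_prop : Continuous fun g : G => |g p.1 p.2|).continuousOn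
    exact ⟨R, fun g hg => hR ⟨g, hg, rfl⟩⟩
  choose R hR using this
  refine ⟨∑ p, |R p|, Finset.sum_nonneg fun _ _ => abs_nonneg _, fun g hg i j => ?_⟩
  exact (hR (i, j) g hg).trans ((le_abs_self _).trans
    (Finset.single_le_sum (f := fun p => |R p|) (fun _ _ => abs_nonneg _) (Finset.mem_univ (i, j))))

lemma finite_box (R : ℝ) : {γ : Γ | ι γ ∈ box R}.Finite := by
  have h : (Set.pi Set.univ fun _ : Fin 3 => Set.pi Set.univ fun _ : Fin 3 =>
      Set.Icc (-⌈R⌉) ⌈R⌉ : Set (Fin 3 → Fin 3 → ℤ)).Finite :=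
    Set.Finite.pi fun _ => Set.Finite.pi fun _ => Set.finite_Icc _ _
  refine Set.Finite.of_finite_image (f := fun γ : Γ => (fun i j => γ i j : Fin 3 → Fin 3 → ℤ))
    (h.subset ?_) ?_
  · rintro _ ⟨γ, hγ, rfl⟩ i - j -
    have h1 : |((γ i j : ℤ) : ℝ)| ≤ R := hγ i j
    have h2 : |γ i j| ≤ ⌈R⌉ := by
      have : ((|γ i j| : ℤ) : ℝ) ≤ ((⌈R⌉ : ℤ) : ℝ) := by
        rw [Int.cast_abs]; exact h1.trans (Int.le_ceil R)
      exact_mod_cast this
    exact abs_le.1 h2
  · intro a _ b _ hab
    ext i j
    exact congrFun (congrFun hab i) j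

/-- `Γ` is discrete and closed: a compact set contains finitely many lattice points. -/
lemma finite_of_isCompact {K : Set G} (hK : IsCompact K) : {γ : Γ | ι γ ∈ K}.Finite := by
  obtain ⟨R, -, hR⟩ := exists_subset_box hK
  exact (finite_box R).subset fun γ hγ => hR hγ

/-! ### transvections and diagonal elements -/

/-- the elementary matrix `1 + b E_{ij}` -/
abbrev tv {i j : Fin 3} (hij : i ≠ j) (b : ℝ) : G := Matrix.SpecialLinearGroup.transvection hij b

lemma tv_apply {i j : Fin 3} (hij : i ≠ j) (b : ℝ) (k l : Fin 3) :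
    tv hij b k l = (if k = l then 1 else 0) + (if i = k ∧ j = l then b else 0) := by
  have : tv hij b k l = ((1 : Matrix (Fin 3) (Fin 3) ℝ) + single i j b) k l := rfl
  rw [this, Matrix.add_apply, Matrix.one_apply, Matrix.single_apply]

lemma mul_tv_apply (g : G) {i j : Fin 3} (hij : i ≠ j) (b : ℝ) (k l : Fin 3) :
    (g * tv hij b) k l = g k l + if l = j then b * g k i else 0 := by
  rw [mul_entry]
  simp only [tv_apply]
  fin_cases i <;> fin_cases j <;> fin_cases l <;> simp at hij ⊢ <;> ring

lemma tv_mul_apply (g : G) {i j : Fin 3} (hij : i ≠ j) (b : ℝ) (k l : Fin 3) :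
    (tv hij b * g) k l = g k l + if k = i then b * g j l else 0 := by
  rw [mul_entry]
  simp only [tv_apply]
  fin_cases i <;> fin_cases j <;> fin_cases k <;> simp at hij ⊢ <;> ring

lemma tv_add {i j : Fin 3} (hij : i ≠ j) (a b : ℝ) : tv hij (a + b) = tv hij a * tv hij b :=
  Matrix.SpecialLinearGroup.transvection_add hij a b

@[simp] lemma tv_zero {i j : Fin 3} (hij : i ≠ j) : tv hij 0 = 1 :=
  Matrix.SpecialLinearGroup.transvection_coeff_zero hij

lemma tv_inv {i j : Fin 3} (hij : i ≠ j) (b : ℝ) : (tv hij b)⁻¹ = tv hij (-b) :=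
  Matrix.SpecialLinearGroup.transvection_inv hij b

@[fun_prop] lemma continuous_tv {i j : Fin 3} (hij : i ≠ j) : Continuous (tv hij) := by
  refine continuous_G fun k l => ?_
  simp only [tv_apply]
  split_ifs <;> fun_prop

/-- the diagonal matrix `diag (e^{u 0}, e^{u 1}, e^{u 2})` for `u` of sum zero (the sum is
subtracted from the last coordinate, so that the definition is total). -/
noncomputable def dg (a b : ℝ) : G :=
  ⟨diagonal ![Real.exp a, Real.exp b, Real.exp (-a - b)], by
    rw [det_diagonal, Fin.prod_univ_three]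
    simp only [Matrix.cons_val_zero, Matrix.cons_val_one, Matrix.cons_val]
    rw [← Real.exp_add, ← Real.exp_add]; simp⟩

/-- the logarithms of the entries of `dg a b` -/
def dgl (a b : ℝ) : Fin 3 → ℝ := ![a, b, -a - b]

lemma dg_apply (a b : ℝ) (i j : Fin 3) :
    dg a b i j = if i = j then Real.exp (dgl a b i) else 0 := by
  have : dg a b i j = diagonal ![Real.exp a, Real.exp b, Real.exp (-a - b)] i j := rfl
  rw [this, diagonal_apply]
  fin_cases i <;> simp [dgl]

lemma mul_dg_apply (g : G) (a b : ℝ) (i j : Fin 3) :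
    (g * dg a b) i j = g i j * Real.exp (dgl a b j) := by
  rw [mul_entry]
  simp only [dg_apply]
  fin_cases j <;> simp

lemma dg_mul_apply (g : G) (a b : ℝ) (i j : Fin 3) :
    (dg a b * g) i j = Real.exp (dgl a b i) * g i j := by
  rw [mul_entry]
  simp only [dg_apply]
  fin_cases i <;> simp

lemma dgl_add (a b a' b' : ℝ) (i : Fin 3) :
    dgl (a + a') (b + b') i = dgl a b i + dgl a' b' i := by
  fin_cases i <;> simp [dgl]; ring

lemma dgl_neg (a b : ℝ) (i : Fin 3) : dgl (-a) (-b) i = - dgl a b i := by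
  fin_cases i <;> simp [dgl]; ring

lemma dg_add (a b a' b' : ℝ) : dg (a + a') (b + b') = dg a b * dg a' b' := by
  ext i j
  rw [mul_dg_apply, dg_apply, dg_apply]
  split_ifs with h
  · subst h; rw [dgl_add, Real.exp_add]
  · simp

@[simp] lemma dg_zero : dg 0 0 = 1 := by
  ext i j
  rw [dg_apply]
  have : dgl 0 0 i = 0 := by fin_cases i <;> simp [dgl]
  rw [this, Real.exp_zero]
  exact (Matrix.one_apply (i := i) (j := j)).symm

lemma dg_inv (a b : ℝ) : (dg a b)⁻¹ = dg (-a) (-b) :=
  inv_eq_of_mul_eq_one_right (by rw [← dg_add]; simp)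

@[fun_prop] lemma continuous_dg {α : Type*} [TopologicalSpace α] {a b : α → ℝ}
    (ha : Continuous a) (hb : Continuous b) : Continuous fun x => dg (a x) (b x) := by
  refine continuous_G fun k l => ?_
  simp only [dg_apply]
  split_ifs
  · fin_cases k <;> simp [dgl] <;> fun_prop
  · fun_prop

lemma dg_conj_tv (a b : ℝ) {i j : Fin 3} (hij : i ≠ j) (x : ℝ) :
    dg a b * tv hij x * (dg a b)⁻¹ = tv hij (Real.exp (dgl a b i - dgl a b j) * x) := by
  ext k l
  rw [dg_inv, mul_dg_apply, dg_mul_apply, tv_apply, tv_apply, dgl_neg]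
  by_cases h1 : k = l
  · subst h1
    have : ¬ (i = k ∧ j = k) := fun h => hij (h.1.trans h.2.symm)
    simp only [if_true, this, if_false, add_zero, mul_one]
    rw [← Real.exp_add]; simp
  · simp only [h1, if_false, zero_add]
    split_ifs with h2
    · obtain ⟨rfl, rfl⟩ := h2
      rw [Real.exp_sub, Real.exp_neg]; field_simp
    · simp

/-- Steinberg relation -/
lemma tv_comm {i j k : Fin 3} (hij : i ≠ j) (hjk : j ≠ k) (hik : i ≠ k) (a b : ℝ) :
    tv hij a * tv hjk b * (tv hij a)⁻¹ * (tv hjk b)⁻¹ = tv hik (a * b) := by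
  rw [tv_inv, tv_inv]
  ext p q
  simp only [mul_tv_apply, tv_apply]
  fin_cases i <;> fin_cases j <;> fin_cases k <;> simp at hij hjk hik <;>
    fin_cases p <;> fin_cases q <;> simp [mul_comm]

lemma exists_third {i j : Fin 3} (hij : i ≠ j) : ∃ k, i ≠ k ∧ k ≠ j := by
  fin_cases i <;> fin_cases j <;> simp at hij ⊢ <;> decide

lemma diag2n_eq {i j : Fin 3} (hij : i ≠ j) (c : ℝ) (hc : c ≠ 0) :
    (Matrix.SpecialLinearGroup.diag2n hij c hc : G)
      = tv hij c * tv hij.symm (-c⁻¹) * tv hij c * (tv hij (-1) * tv hij.symm 1 * tv hij (-1)) := by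
  ext p q
  have : (Matrix.SpecialLinearGroup.diag2n hij c hc : G) p q
      = diagonal (fun k ↦ if k = i then c else if k = j then c⁻¹ else 1) p q := rfl
  rw [this, ← mul_assoc, ← mul_assoc]
  simp only [mul_tv_apply, tv_apply, diagonal_apply]
  fin_cases i <;> fin_cases j <;> simp at hij <;>
    fin_cases p <;> fin_cases q <;> simp [hc]

/-- `G` is generated (as a monoid) by the elementary matrices. -/
theorem tv_induction (P : G → Prop) (htv : ∀ (i j : Fin 3) (hij : i ≠ j) (b : ℝ), P (tv hij b))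
    (hmul : ∀ g h, P g → P h → P (g * h)) (g : G) : P g := by
  refine Matrix.SpecialLinearGroup.diagonal_transvection_induction' P g ?_ htv hmul
  intro i j hij c hc
  rw [diag2n_eq hij c hc]
  exact hmul _ _ (hmul _ _ (hmul _ _ (htv _ _ _ _) (htv _ _ _ _)) (htv _ _ _ _))
    (hmul _ _ (hmul _ _ (htv _ _ _ _) (htv _ _ _ _)) (htv _ _ _ _))

theorem subgroup_eq_top (S : Subgroup G)
    (h : ∀ (i j : Fin 3) (hij : i ≠ j) (b : ℝ), tv hij b ∈ S) : S = ⊤ :=
  eq_top_iff.2 fun g _ => tv_induction (· ∈ S) h (fun _ _ => S.mul_mem) g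

/-- every homomorphism from `G` to a commutative monoid is trivial -/
theorem hom_comm_trivial {A : Type*} [CommMonoid A] (f : G →* A) (g : G) : f g = 1 := by
  refine tv_induction (fun g => f g = 1) (fun i j hij b => ?_)
    (fun g h hg hh => by simp only [map_mul, hg, hh, one_mul]) g
  obtain ⟨k, hik, hkj⟩ := exists_third hij
  have h := tv_comm hik hkj hij b 1
  rw [mul_one] at h
  rw [← h]
  simp only [map_mul]
  have e1 : f (tv hik b) * f (tv hik b)⁻¹ = 1 := by rw [← map_mul]; simp
  have e2 : f (tv hkj 1) * f (tv hkj 1)⁻¹ = 1 := by rw [← map_mul]; simp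
  calc _ = (f (tv hik b) * f (tv hik b)⁻¹) * (f (tv hkj 1) * f (tv hkj 1)⁻¹) := by ac_rfl
    _ = 1 := by rw [e1, e2, one_mul]

/-- `G` is unimodular -/
theorem isMulRightInvariant_of_haar (ν : Measure G) [ν.IsHaarMeasure] : ν.IsMulRightInvariant := by
  refine ⟨fun g => ?_⟩
  rw [Measure.map_right_mul_eq_modularCharacterFun_smul ν g]
  have : Measure.modularCharacterFun g = 1 := hom_comm_trivial Measure.modularCharacter g
  rw [this, one_smul]

theorem isInvInvariant_of_haar (ν : Measure G) [ν.IsHaarMeasure] : ν.IsInvInvariant := by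
  have := isMulRightInvariant_of_haar ν
  constructor
  let c : ℝ≥0∞ := Measure.haarScalarFactor ν.inv ν
  have hc : ν.inv = c • ν := Measure.isMulLeftInvariant_eq_smul_of_innerRegular ν.inv ν
  have : Measure.map Inv.inv (Measure.map Inv.inv ν) = c ^ 2 • ν := by
    rw [← Measure.inv_def ν, hc, Measure.map_smul, ← Measure.inv_def ν, hc, smul_smul, pow_two]
  have μeq : ν = c ^ 2 • ν := by
    rw [Measure.map_map continuous_inv.measurable continuous_inv.measurable] at this
    simpa only [inv_involutive, Function.Involutive.comp_self, Measure.map_id]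
  have K : TopologicalSpace.PositiveCompacts G := Classical.arbitrary _
  have : c ^ 2 * ν K = 1 ^ 2 * ν K := by
    conv_rhs => rw [μeq]
    simp
  have : c ^ 2 = 1 ^ 2 :=
    (ENNReal.mul_left_inj (Measure.measure_pos_of_nonempty_interior _ K.interior_nonempty).ne'
          K.isCompact.measure_lt_top.ne).1 this
  have : c = 1 := (ENNReal.pow_right_strictMono two_ne_zero).injective this
  rw [hc, this, one_smul]

end Crest.Agent.N111
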